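import Crest.Agent.N207.Defs
import Crest.Agent.R247.Ms11_322

/-!
# Row 207 (helper97): the Riemannian volume `m.vol`, part 1

Chart formulas, finiteness, positivity, integration by parts, comparison of the volumes of two
metrics (`rho m m'`, `vol_eq_withDensity`, `integral_rho`).
-/

set_option autoImplicit false
set_option linter.unusedSectionVars false
set_option linter.style.haveILetI false

open scoped ContDiff Manifold Topology ENNReal NNReal
open Set Filter MeasureTheory
open Crest.GeometryTopology.CoordMetric Crest.GeometryTopology.ChartCurvature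
  Crest.GeometryTopology.MetricFamily
open Crest.Agent.R247 Crest.Agent.R202.Tens

noncomputable section

namespace Crest.Agent.N207.V

variable {n : ℕ} {M : Type*} [TopologicalSpace M] [ChartedSpace (En n) M]
  [IsManifold 𝓘(ℝ, En n) ∞ M]

/-- source of the preferred chart -/
abbrev src (n : ℕ) {M : Type*} [TopologicalSpace M] [ChartedSpace (En n) M] (x : M) : Set M :=
  (chartAt (En n) x).source

/-- inverse of the preferred chart -/
abbrev sy (n : ℕ) {M : Type*} [TopologicalSpace M] [ChartedSpace (En n) M] (x : M) :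
    En n → M := (chartAt (En n) x).symm

theorem ctr_mem (x : M) : ctr n x ∈ tg n x := mem_chart_target (En n) x

theorem sy_ctr (x : M) : sy n x (ctr n x) = x :=
  (chartAt (En n) x).left_inv (mem_chart_source (En n) x)

/-- the chart metric is Riemannian -/
theorem riem (m : Met n M) (x : M) : IsRiemannianOn (m.G x) (tg n x) := by
  letI := Sl.tp m; letI := Sl.ch m; letI := Sl.mf m; letI := Sl.rb m; letI := Sl.crb m
  exact Bo84.isRiemannianOn_chartMetric (n := n) (M := Sl m) x

/-- the changes of charts are local isometries -/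
theorem pull_trans (m : Met n M) (x₀ x₁ : M) :
    Pull (m.G x₀) (m.G x₁) (Bo84.trans x₀ x₁) (Bo84.tdom x₀ x₁) (tg n x₁) := by
  letI := Sl.tp m; letI := Sl.ch m; letI := Sl.mf m; letI := Sl.rb m; letI := Sl.crb m
  exact Bo84.pull_trans (n := n) (M := Sl m) x₀ x₁

/-- the volume density in the chart at `x` -/
def dens (m : Met n M) (x : M) (a : En n) : ℝ := √(m.G x a).det

theorem dens_pos (m : Met n M) (x : M) {a : En n} (ha : a ∈ tg n x) : 0 < dens m x a :=
  Real.sqrt_pos.2 (Bo84.det_pos (riem m x) ha)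

theorem dens_nonneg (m : Met n M) (x : M) (a : En n) : 0 ≤ dens m x a := Real.sqrt_nonneg _

theorem contDiffOn_dens (m : Met n M) (x : M) : ContDiffOn ℝ ∞ (dens m x) (tg n x) :=
  fun _ ha => (Bo84.contDiffAt_sqrt_det (riem m x) ha).contDiffWithinAt

theorem sqrt_det_pull {g' g : MetricField n} {Φ : En n → En n} {U W : Set (En n)} {y : En n}
    (h : Pull g' g Φ U W) (hy : y ∈ U) :
    √(g' y).det = √(g (Φ y)).det * |(fderiv ℝ Φ y).det| := by
  rw [h.det_pull hy, Real.sqrt_mul (Bo84.det_pos h.riem (h.maps y hy)).le, Real.sqrt_sq_eq_abs]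

theorem mem_tdom {x₀ : M} {y : En n} (hy : y ∈ tg n x₀) :
    y ∈ Bo84.tdom (n := n) x₀ (sy n x₀ y) := ⟨hy, mem_chart_source (En n) _⟩

theorem dens_chart (m : Met n M) {x₀ : M} {y : En n} (hy : y ∈ tg n x₀) :
    dens m x₀ y = dens m (sy n x₀ y) (ctr n (sy n x₀ y)) *
      |(fderiv ℝ (Bo84.trans (n := n) x₀ (sy n x₀ y)) y).det| :=
  sqrt_det_pull (pull_trans m x₀ (sy n x₀ y)) (mem_tdom hy)

/-- the density of `m'.vol` with respect to `m.vol` -/
def rho (m m' : Met n M) (x : M) : ℝ := dens m' x (ctr n x) / dens m x (ctr n x)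

theorem rho_pos (m m' : Met n M) (x : M) : 0 < rho m m' x :=
  div_pos (dens_pos m' x (ctr_mem x)) (dens_pos m x (ctr_mem x))

theorem rho_self (m : Met n M) (x : M) : rho m m x = 1 := div_self (dens_pos m x (ctr_mem x)).ne'

theorem rho_chart (m m' : Met n M) {x₀ : M} {y : En n} (hy : y ∈ tg n x₀) :
    rho m m' (sy n x₀ y) = dens m' x₀ y / dens m x₀ y := by
  have h1 := dens_chart m hy
  have h2 := dens_chart m' hy
  have h3 := dens_pos m x₀ hy
  have h4 : |(fderiv ℝ (Bo84.trans (n := n) x₀ (sy n x₀ y)) y).det| ≠ 0 := by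
    intro h; rw [h, mul_zero] at h1; exact h3.ne' h1
  rw [h1, h2, mul_div_mul_right _ _ h4, rho]

theorem dens_mul_rho (m m' : Met n M) {x₀ : M} {y : En n} (hy : y ∈ tg n x₀) :
    dens m x₀ y * rho m m' (sy n x₀ y) = dens m' x₀ y := by
  rw [rho_chart m m' hy, mul_div_cancel₀ _ (dens_pos m x₀ hy).ne']

theorem contMDiffAt_of_inCh {k : WithTop ℕ∞} (hk : k ≤ (∞ : WithTop ℕ∞)) {f : M → ℝ} {x₀ p : M}
    (hp : p ∈ src n x₀) (hf : ContDiffAt ℝ k (Bo84.inCh n x₀ f) (chartAt (En n) x₀ p)) :
    ContMDiffAt 𝓘(ℝ, En n) 𝓘(ℝ, ℝ) k f p := by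
  have h1 : ContMDiffAt 𝓘(ℝ, En n) 𝓘(ℝ, En n) k (chartAt (En n) x₀) p :=
    ((contMDiffOn_chart (I := 𝓘(ℝ, En n)) (n := ∞) (x := x₀)).contMDiffAt
      ((chartAt (En n) x₀).open_source.mem_nhds hp)).of_le hk
  have h2 : ContMDiffAt 𝓘(ℝ, En n) 𝓘(ℝ, ℝ) k (Bo84.inCh n x₀ f ∘ chartAt (En n) x₀) p :=
    (contMDiffAt_iff_contDiffAt.2 hf).comp p h1
  refine h2.congr_of_eventuallyEq ?_
  filter_upwards [(chartAt (En n) x₀).open_source.mem_nhds hp] with q hq
  simp only [Function.comp, Bo84.inCh, (chartAt (En n) x₀).left_inv hq]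

theorem contDiffAt_inCh {k : WithTop ℕ∞} (hk : k ≤ (∞ : WithTop ℕ∞)) {f : M → ℝ} {x₀ : M} {y : En n}
    (hy : y ∈ tg n x₀) (hf : ContMDiffAt 𝓘(ℝ, En n) 𝓘(ℝ, ℝ) k f (sy n x₀ y)) :
    ContDiffAt ℝ k (Bo84.inCh n x₀ f) y := by
  have h1 : ContMDiffAt 𝓘(ℝ, En n) 𝓘(ℝ, En n) k (sy n x₀) y :=
    ((contMDiffOn_chart_symm (I := 𝓘(ℝ, En n)) (n := ∞) (x := x₀)).contMDiffAt
      ((chartAt (En n) x₀).open_target.mem_nhds hy)).of_le hk
  exact contMDiffAt_iff_contDiffAt.1 (hf.comp y h1)

/-- smoothness can be checked in the preferred charts -/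
theorem sm_of_chart {f : M → ℝ} (h : ∀ x, ContDiffAt ℝ ∞ (Bo84.inCh n x f) (ctr n x)) :
    Sm n f := fun x => contMDiffAt_of_inCh le_rfl (mem_chart_source (En n) x) (h x)

theorem Sm.inCh {f : M → ℝ} (hf : Sm n f) (x : M) : ContDiffOn ℝ ∞ (Bo84.inCh n x f) (tg n x) :=
  fun _ hy => (contDiffAt_inCh le_rfl hy (hf _)).contDiffWithinAt

theorem sm_rho (m m' : Met n M) : Sm n (rho m m') := by
  refine sm_of_chart fun x => ?_
  have h1 : ContDiffOn ℝ ∞ (fun y => dens m' x y / dens m x y) (tg n x) :=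
    (contDiffOn_dens m' x).div (contDiffOn_dens m x) fun y hy => (dens_pos m x hy).ne'
  have h2 : ContDiffOn ℝ ∞ (Bo84.inCh n x (rho m m')) (tg n x) :=
    h1.congr fun y hy => rho_chart m m' hy
  exact h2.contDiffAt ((chartAt (En n) x).open_target.mem_nhds (ctr_mem x))

/-! ### finite partitions of unity -/

variable (n M) in
/-- a finite smooth partition of unity subordinate to the preferred charts -/
structure PU where
  t : Finset M
  χ : M → M → ℝ
  sm : ∀ p, Sm n (χ p)
  supp : ∀ p, tsupport (χ p) ⊆ src n p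
  nonneg : ∀ p x, 0 ≤ χ p x
  sum_one : ∀ x, ∑ p ∈ t, χ p x = 1

theorem nonempty_PU [T2Space M] [CompactSpace M] : Nonempty (PU n M) := by
  classical
  obtain ⟨f, hf⟩ := SmoothPartitionOfUnity.exists_isSubordinate_chartAt_source 𝓘(ℝ, En n) M
  have hfin : {i | (Function.support (f i)).Nonempty}.Finite :=
    f.locallyFinite.finite_nonempty_of_compact
  refine ⟨⟨hfin.toFinset, fun p => f p, fun p => (f p).contMDiff, hf, f.nonneg, fun x => ?_⟩⟩
  rw [← f.sum_eq_one (mem_univ x)]
  symm
  refine finsum_eq_sum_of_support_subset _ fun i hi => ?_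
  simp only [Finite.coe_toFinset, mem_ofPred_eq]
  exact ⟨x, hi⟩

theorem PU.le_one (P : PU n M) {p : M} (hp : p ∈ P.t) (x : M) : P.χ p x ≤ 1 := by
  rw [← P.sum_one x]
  exact Finset.single_le_sum (f := fun q => P.χ q x) (fun q _ => P.nonneg q x) hp

theorem PU.zero (P : PU n M) (p : M) {x : M} (hx : x ∉ src n p) : P.χ p x = 0 :=
  image_eq_zero_of_notMem_tsupport fun h => hx (P.supp p h)

theorem exists_cover [CompactSpace M] : ∃ t : Finset M, ⋃ p ∈ t, src n p = univ := by
  obtain ⟨t, ht⟩ := isCompact_univ.elim_finite_subcover (fun p : M => src n p)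
    (fun p => (chartAt (En n) p).open_source)
    (fun x _ => mem_iUnion.2 ⟨x, mem_chart_source (En n) x⟩)
  exact ⟨t, eq_univ_of_univ_subset ht⟩

/-! ### the volume -/

variable [T3Space M] [ConnectedSpace M] [MeasurableSpace M] [BorelSpace M]

theorem lintegral_source (m : Met n M) (x : M) (f : M → ℝ≥0∞) :
    ∫⁻ z in src n x, f z ∂m.vol = ∫⁻ a in tg n x, ENNReal.ofReal (dens m x a) * f (sy n x a) :=
  Ms322.lintegral_source (n := n) (M := Sl m) x f

theorem lintegral_symm_image (m : Met n M) (x : M) {B : Set (En n)} (hB : B ⊆ tg n x)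
    (hBm : MeasurableSet B) (f : M → ℝ≥0∞) :
    ∫⁻ z in sy n x '' B, f z ∂m.vol = ∫⁻ a in B, ENNReal.ofReal (dens m x a) * f (sy n x a) := by
  have h := @Ms322.lintegral_symm_image n (Sl m) _ _ _ _ _ _ _ _ x B
  exact h hB hBm f

theorem integral_source {G : Type*} [NormedAddCommGroup G] [NormedSpace ℝ G] (m : Met n M) (x : M)
    (f : M → G) :
    ∫ z in src n x, f z ∂m.vol = ∫ a in tg n x, dens m x a • f (sy n x a) :=
  Ms322.integral_source (n := n) (M := Sl m) x f

theorem integral_symm_image {G : Type*} [NormedAddCommGroup G] [NormedSpace ℝ G] (m : Met n M)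
    (x : M) {B : Set (En n)} (hB : B ⊆ tg n x) (hBm : MeasurableSet B) (f : M → G) :
    ∫ z in sy n x '' B, f z ∂m.vol = ∫ a in B, dens m x a • f (sy n x a) := by
  have h := @Ms322.integral_symm_image n (Sl m) _ _ _ _ _ _ _ _ G _ _ x B
  exact h hB hBm f

theorem integral_of_support {G : Type*} [NormedAddCommGroup G] [NormedSpace ℝ G] (m : Met n M)
    (x : M) (f : M → G) (hf : ∀ z, z ∉ src n x → f z = 0) :
    ∫ z, f z ∂m.vol = ∫ a in tg n x, dens m x a • f (sy n x a) :=
  Ms322.integral_eq_of_support (n := n) (M := Sl m) x f hf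

theorem isLocallyFinite (m : Met n M) : IsLocallyFiniteMeasure m.vol :=
  Ms322.isLocallyFiniteMeasure n (Sl m)

theorem isOpenPos (m : Met n M) : m.vol.IsOpenPosMeasure := Ms322.isOpenPosMeasure n (Sl m)

theorem isFinite [CompactSpace M] (m : Met n M) : IsFiniteMeasure m.vol := by
  haveI := isLocallyFinite m
  infer_instance

theorem integrable_cont [CompactSpace M] {G : Type*} [NormedAddCommGroup G]
    [SecondCountableTopologyEither M G] (m : Met n M) {f : M → G} (hf : Continuous f) :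
    Integrable f m.vol := by
  haveI := isFinite m
  exact hf.integrable_of_hasCompactSupport (HasCompactSupport.of_compactSpace f)

/-- comparison of two volumes -/
theorem vol_eq_withDensity [CompactSpace M] (m m' : Met n M) :
    m'.vol = m.vol.withDensity fun x => ENNReal.ofReal (rho m m' x) := by
  obtain ⟨t, ht⟩ := exists_cover (n := n) (M := M)
  refine (Measure.ext_iff_of_biUnion_eq_univ (S := (t : Set M)) t.countable_toSet ht).2 ?_
  intro p _
  have hm : MeasurableSet (src n p) := (chartAt (En n) p).open_source.measurableSet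
  rw [restrict_withDensity hm]
  ext S hS
  rw [withDensity_apply _ hS, ← lintegral_indicator_one hS, ← lintegral_indicator hS,
    lintegral_source, lintegral_source]
  refine setLIntegral_congr_fun (chartAt (En n) p).open_target.measurableSet fun a ha => ?_
  by_cases h : sy n p a ∈ S
  · simp only [indicator_of_mem h, Pi.one_apply, mul_one]
    rw [← ENNReal.ofReal_mul (dens_nonneg m p a), dens_mul_rho m m' ha]
  · simp only [indicator_of_notMem h, mul_zero]

theorem integral_rho [CompactSpace M] {G : Type*} [NormedAddCommGroup G] [NormedSpace ℝ G]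
    (m m' : Met n M) (f : M → G) :
    ∫ x, f x ∂m'.vol = ∫ x, rho m m' x • f x ∂m.vol := by
  rw [vol_eq_withDensity m m', integral_withDensity_eq_integral_toReal_smul
    (sm_rho m m').continuous.measurable.ennreal_ofReal
    (Eventually.of_forall fun _ => ENNReal.ofReal_lt_top)]
  refine integral_congr_ae (Eventually.of_forall fun x => ?_)
  simp only
  rw [ENNReal.toReal_ofReal (rho_pos m m' x).le]

theorem vol_le_of_rho [CompactSpace M] {m m' : Met n M} {C : ℝ} (h : ∀ x, rho m m' x ≤ C) :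
    m'.vol ≤ ENNReal.ofReal C • m.vol := by
  rw [vol_eq_withDensity m m', ← withDensity_const]
  exact withDensity_mono (Eventually.of_forall fun x => ENNReal.ofReal_le_ofReal (h x))

/-! ### integration by parts -/

variable [CompactSpace M] [SecondCountableTopology M]

/-- smooth functions are locally Lipschitz for the distance of `m` -/
theorem Sm.locLip (m : Met n M) {u : M → ℝ} (hu : Sm n u) : LocallyLipschitz (α := Sl m) u := by
  intro z
  have h := @Ms322.LLo.of_contMDiffAt n (Sl m) _ _ _ _ _ _ univ u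
  exact h (fun w _ => (hu w).of_le Bo84.one_le_infty) z (mem_univ z)

/-- integration by parts against a Lipschitz test function; `f` is `C²` on the open set `U` -/
theorem ibp_lip (m : Met n M) {U : Set M} (hU : IsOpen U) {f φ : M → ℝ}
    (hf : ∀ z ∈ U, ContMDiffAt 𝓘(ℝ, En n) 𝓘(ℝ, ℝ) 2 f z) (hφ : LocallyLipschitz (α := Sl m) φ)
    (hs : tsupport φ ⊆ U) :
    ∫ z, φ z * m.lap f z ∂m.vol = - ∫ z, m.gam f φ z ∂m.vol := by
  have h := Ms322.ibp_mLap (n := n) (M := Sl m) hU hf hφ (HasCompactSupport.of_compactSpace _) hs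
  simp only [Ms322.inner_Gr_eq_mGam] at h
  have h' : ∫ z, m.gam f φ z ∂m.vol = - ∫ z, φ z * m.lap f z ∂m.vol := h
  rw [h', neg_neg]

theorem gam_comm (m : Met n M) (f h : M → ℝ) (x : M) : m.gam f h x = m.gam h f x :=
  Bo84.gam_comm (riem m x) (ctr_mem x) _ _

/-- integration by parts -/
theorem ibp (m : Met n M) {u v : M → ℝ} (hu : Sm n u) (hv : Sm n v) :
    ∫ z, u z * m.lap v z ∂m.vol = - ∫ z, m.gam u v z ∂m.vol := by
  rw [ibp_lip m isOpen_univ (fun z _ => (hv z).of_le Bo84.two_le_infty) (Sm.locLip m hu)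
    (subset_univ _)]
  simp only [gam_comm m v u]

theorem int_lap (m : Met n M) {u : M → ℝ} (hu : Sm n u) : ∫ z, m.lap u z ∂m.vol = 0 := by
  have h := ibp m (u := fun _ => (1 : ℝ)) contMDiff_const hu
  have h0 : ∀ z, m.gam (fun _ => (1 : ℝ)) u z = 0 := fun z =>
    Bo84.gam_const_left (g := m.G z) (k := Bo84.inCh n z u) (x := ctr n z) 1
  simpa [h0] using h

end Crest.Agent.N207.V

end
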