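import Crest.Agent.N207.V.Basic
import Crest.Agent.N207.A.Mk

/-!
# Row 207 (helper97): the area formula under a local parametrisation
-/

set_option autoImplicit false
set_option linter.unusedSectionVars false
set_option linter.style.haveILetI false

open scoped ContDiff Manifold Topology ENNReal NNReal
open Set Filter MeasureTheory
open Crest.GeometryTopology.CoordMetric Crest.GeometryTopology.ChartCurvature
  Crest.GeometryTopology.MetricFamily
open Crest.Agent.R247 Crest.Agent.R202.Tens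

noncomputable section

namespace Crest.Agent.N207.V

variable {n : ℕ} {M : Type*} [TopologicalSpace M] [ChartedSpace (En n) M]
  [IsManifold 𝓘(ℝ, En n) ∞ M] {Ψ : En n → M} {U : Set (En n)}

theorem par_isOpen (hP : Par Ψ U) (x : M) : IsOpen (U ∩ Ψ ⁻¹' src n x) :=
  hP.sm.continuousOn.isOpen_inter_preimage hP.isOpen (chartAt (En n) x).open_source

theorem par_contDiffOn (hP : Par Ψ U) (x : M) :
    ContDiffOn ℝ ∞ (fun z => chartAt (En n) x (Ψ z)) (U ∩ Ψ ⁻¹' src n x) := by
  rw [← contMDiffOn_iff_contDiffOn]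
  have h2 : ContMDiffOn 𝓘(ℝ, En n) 𝓘(ℝ, En n) ∞ (chartAt (En n) x) (src n x) := contMDiffOn_chart
  exact h2.comp (hP.sm.mono inter_subset_left) fun y hy => hy.2

theorem par_fderiv (hP : Par Ψ U) (x : M) {y : En n} (hy : y ∈ U ∩ Ψ ⁻¹' src n x) (u : En n) :
    fderiv ℝ (fun z => chartAt (En n) x (Ψ z)) y u =
      Bo84.dCh x (Ψ y) (mfderiv 𝓘(ℝ, En n) 𝓘(ℝ, En n) Ψ y u) := by
  have h1 : MDifferentiableAt 𝓘(ℝ, En n) 𝓘(ℝ, En n) Ψ y :=
    (hP.sm.contMDiffAt (hP.isOpen.mem_nhds hy.1)).mdifferentiableAt (by simp)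
  have h2 : MDifferentiableAt 𝓘(ℝ, En n) 𝓘(ℝ, En n) (chartAt (En n) x) (Ψ y) :=
    (mdifferentiable_chart (I := 𝓘(ℝ, En n)) x).mdifferentiableAt hy.2
  have h3 := mfderiv_comp y h2 h1
  rw [mfderiv_eq_fderiv] at h3
  exact congrArg (fun L => L u) h3

/-- a parametrisation read in a chart is a local isometry -/
theorem par_pull (hP : Par Ψ U) (m : Met n M) (x : M) :
    Pull (m.pm Ψ) (m.G x) (fun z => chartAt (En n) x (Ψ z)) (U ∩ Ψ ⁻¹' src n x) (tg n x) where
  isOpen := par_isOpen hP x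
  riem := riem m x
  maps y hy := (chartAt (En n) x).map_source hy.2
  smooth := par_contDiffOn hP x
  pull y hy i j := by
    rw [← bil_apply, par_fderiv hP x hy, par_fderiv hP x hy, Met.G_eq_frmG]
    exact frm_eq_bil m.inner x hy.2 _ _
  inj y hy := by
    intro u v h
    rw [par_fderiv hP x hy, par_fderiv hP x hy] at h
    exact hP.inj y hy.1 (dCh_injective x hy.2 h)

theorem par_riem (hP : Par Ψ U) (m : Met n M) : IsRiemannianOn (m.pm Ψ) U where
  isOpen := hP.isOpen
  contDiffOn i j y hy :=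
    (((par_pull hP m (Ψ y)).riem'.contDiffOn i j).contDiffAt ((par_isOpen hP (Ψ y)).mem_nhds
      ⟨hy, mem_chart_source (En n) (Ψ y)⟩)).contDiffWithinAt
  posDef y hy := (par_pull hP m (Ψ y)).riem'.posDef y ⟨hy, mem_chart_source (En n) (Ψ y)⟩

/-- the volume density of a parametrisation -/
def pdens (m : Met n M) (Ψ : En n → M) (y : En n) : ℝ := √(m.pm Ψ y).det

theorem pdens_nonneg (m : Met n M) (Ψ : En n → M) (y : En n) : 0 ≤ pdens m Ψ y :=
  Real.sqrt_nonneg _

theorem pdens_pos (hP : Par Ψ U) (m : Met n M) {y : En n} (hy : y ∈ U) : 0 < pdens m Ψ y :=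
  Real.sqrt_pos.2 (Bo84.det_pos (par_riem hP m) hy)

theorem contDiffOn_pdens (hP : Par Ψ U) (m : Met n M) : ContDiffOn ℝ ∞ (pdens m Ψ) U :=
  fun _ ha => (Bo84.contDiffAt_sqrt_det (par_riem hP m) ha).contDiffWithinAt

/-- local inverse function theorem for a local isometry -/
theorem pull_local {g' g : MetricField n} {Φ : En n → En n} {V W : Set (En n)} {y : En n}
    (h : Pull g' g Φ V W) (hy : y ∈ V) :
    (∃ N ∈ 𝓝 y, InjOn Φ N) ∧ map Φ (𝓝 y) = 𝓝 (Φ y) := by
  let L : En n ≃L[ℝ] En n :=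
    (LinearEquiv.ofInjectiveEndo (fderiv ℝ Φ y : En n →ₗ[ℝ] En n) (h.inj y hy)).toContinuousLinearEquiv
  have hL : (L : En n →L[ℝ] En n) = fderiv ℝ Φ y := by ext v; rfl
  have h1 : HasStrictFDerivAt Φ (L : En n →L[ℝ] En n) y := by
    rw [hL]; exact (h.contDiffAt hy).hasStrictFDerivAt (by simp)
  refine ⟨⟨(h1.toOpenPartialHomeomorph Φ).source,
    (h1.toOpenPartialHomeomorph Φ).open_source.mem_nhds h1.mem_toOpenPartialHomeomorph_source,
    (h1.toOpenPartialHomeomorph Φ).injOn⟩, h1.map_nhds_eq_of_equiv⟩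

theorem par_map_nhds (hP : Par Ψ U) (m : Met n M) {y : En n} (hy : y ∈ U) :
    map Ψ (𝓝 y) = 𝓝 (Ψ y) := by
  have hx := mem_chart_source (En n) (Ψ y)
  have hy' : y ∈ U ∩ Ψ ⁻¹' src n (Ψ y) := ⟨hy, hx⟩
  have h1 := (pull_local (par_pull hP m (Ψ y)) hy').2
  have h2 : Ψ =ᶠ[𝓝 y] sy n (Ψ y) ∘ fun z => chartAt (En n) (Ψ y) (Ψ z) := by
    filter_upwards [(par_isOpen hP (Ψ y)).mem_nhds hy'] with z hz
    exact ((chartAt (En n) (Ψ y)).left_inv hz.2).symm
  rw [map_congr h2, ← map_map, h1]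
  exact (chartAt (En n) (Ψ y)).symm_map_nhds_eq hx

/-- parametrisations are open maps -/
theorem par_isOpen_image (hP : Par Ψ U) (m : Met n M) {V : Set (En n)} (hV : IsOpen V)
    (hVU : V ⊆ U) : IsOpen (Ψ '' V) := by
  rw [isOpen_iff_mem_nhds]
  rintro _ ⟨y, hy, rfl⟩
  rw [← par_map_nhds hP m (hVU hy)]
  exact image_mem_map (hV.mem_nhds hy)

/-- parametrisations are locally injective -/
theorem par_locInj (hP : Par Ψ U) (m : Met n M) {y : En n} (hy : y ∈ U) :
    ∃ N, IsOpen N ∧ y ∈ N ∧ InjOn Ψ N := by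
  have hy' : y ∈ U ∩ Ψ ⁻¹' src n (Ψ y) := ⟨hy, mem_chart_source (En n) (Ψ y)⟩
  obtain ⟨N, hN, hi⟩ := (pull_local (par_pull hP m (Ψ y)) hy').1
  refine ⟨interior N, isOpen_interior, mem_interior_iff_mem_nhds.2 hN, fun a ha b hb hab => ?_⟩
  exact hi (interior_subset ha) (interior_subset hb) (by simp only [hab])

variable [T3Space M] [ConnectedSpace M] [MeasurableSpace M] [BorelSpace M]

theorem par_measurableSet (hP : Par Ψ U) {B : Set (En n)} (hB : B ⊆ U) (hBm : MeasurableSet B)
    (hi : InjOn Ψ B) : MeasurableSet (Ψ '' B) :=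
  hBm.image_of_continuousOn_injOn (hP.sm.continuousOn.mono hB) hi

theorem lintegral_par_chart (hP : Par Ψ U) (m : Met n M) (x : M) {B : Set (En n)}
    (hB : B ⊆ U ∩ Ψ ⁻¹' src n x) (hBm : MeasurableSet B) (hi : InjOn Ψ B) (f : M → ℝ≥0∞) :
    ∫⁻ z in Ψ '' B, f z ∂m.vol = ∫⁻ y in B, ENNReal.ofReal (pdens m Ψ y) * f (Ψ y) := by
  have hp := par_pull hP m x
  set Φ : En n → En n := fun z => chartAt (En n) x (Ψ z) with hΦ
  have hd : ∀ y ∈ B, HasFDerivWithinAt Φ (fderiv ℝ Φ y) B y := fun y hy =>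
    (Bo84.pull_differentiableAt hp (hB hy)).hasFDerivAt.hasFDerivWithinAt
  have hiΦ : InjOn Φ B := fun a ha b hb hab =>
    hi ha hb ((chartAt (En n) x).injOn (hB ha).2 (hB hb).2 hab)
  have e1 : Ψ '' B = sy n x '' (Φ '' B) := by
    rw [image_image]
    exact image_congr fun y hy => ((chartAt (En n) x).left_inv (hB hy).2).symm
  rw [e1, lintegral_symm_image m x (by rintro _ ⟨y, hy, rfl⟩; exact hp.maps y (hB hy))
    (measurable_image_of_fderivWithin hBm hd hiΦ),
    lintegral_image_eq_lintegral_abs_det_fderiv_mul volume hBm hd hiΦ]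
  refine setLIntegral_congr_fun hBm fun y hy => ?_
  have e2 : sy n x (Φ y) = Ψ y := (chartAt (En n) x).left_inv (hB hy).2
  have e3 : pdens m Ψ y = dens m x (Φ y) * |(fderiv ℝ Φ y).det| := sqrt_det_pull hp (hB hy)
  rw [e2, e3, ENNReal.ofReal_mul (dens_nonneg m x _)]
  ring

variable [CompactSpace M]

/-- **area formula** -/
theorem lintegral_par (hP : Par Ψ U) (m : Met n M) {B : Set (En n)} (hB : B ⊆ U)
    (hBm : MeasurableSet B) (hi : InjOn Ψ B) (f : M → ℝ≥0∞) :
    ∫⁻ z in Ψ '' B, f z ∂m.vol = ∫⁻ y in B, ENNReal.ofReal (pdens m Ψ y) * f (Ψ y) := by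
  classical
  have key : ∀ t : Finset M, ∀ B : Set (En n), B ⊆ U → MeasurableSet B → InjOn Ψ B →
      (∀ y ∈ B, Ψ y ∈ ⋃ p ∈ t, src n p) →
      ∫⁻ z in Ψ '' B, f z ∂m.vol = ∫⁻ y in B, ENNReal.ofReal (pdens m Ψ y) * f (Ψ y) := by
    intro t
    induction t using Finset.induction_on with
    | empty =>
      intro B _ _ _ h
      have : B = ∅ := eq_empty_of_forall_notMem fun y hy => by simpa using h y hy
      simp [this]
    | insert p t _ ih =>
      intro B hB hBm hi h
      have hm1 : MeasurableSet (B ∩ (U ∩ Ψ ⁻¹' src n p)) :=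
        hBm.inter (par_isOpen hP p).measurableSet
      have e : B = (B \ (U ∩ Ψ ⁻¹' src n p)) ∪ (B ∩ (U ∩ Ψ ⁻¹' src n p)) :=
        (sdiff_union_inter _ _).symm
      have hdis : Disjoint (B \ (U ∩ Ψ ⁻¹' src n p)) (B ∩ (U ∩ Ψ ⁻¹' src n p)) :=
        disjoint_sdiff_inter
      have h1 := ih (B \ (U ∩ Ψ ⁻¹' src n p)) (sdiff_subset.trans hB)
        (hBm.diff (par_isOpen hP p).measurableSet) (hi.mono sdiff_subset) fun y hy => by
          have h2 := h y hy.1
          rw [Finset.set_biUnion_insert] at h2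
          rcases h2 with h2 | h2
          · exact absurd ⟨hB hy.1, h2⟩ hy.2
          · exact h2
      have h2 := lintegral_par_chart hP m p inter_subset_right hm1 (hi.mono inter_subset_left) f
      conv_lhs => rw [e, image_union]
      conv_rhs => rw [e]
      rw [lintegral_union hm1 hdis, lintegral_union (par_measurableSet hP
        (inter_subset_left.trans hB) hm1 (hi.mono inter_subset_left))
        (hdis.image hi sdiff_subset inter_subset_left), h1, h2]
  obtain ⟨t, ht⟩ := exists_cover (n := n) (M := M)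
  exact key t B hB hBm hi fun y _ => ht ▸ mem_univ _

theorem vol_par (hP : Par Ψ U) (m : Met n M) {B : Set (En n)} (hB : B ⊆ U)
    (hBm : MeasurableSet B) (hi : InjOn Ψ B) :
    m.vol (Ψ '' B) = ∫⁻ y in B, ENNReal.ofReal (pdens m Ψ y) := by
  simpa using lintegral_par hP m hB hBm hi fun _ => 1

theorem aemeasurable_pdens (hP : Par Ψ U) (m : Met n M) {B : Set (En n)} (hB : B ⊆ U)
    (hBm : MeasurableSet B) : AEMeasurable (pdens m Ψ) (volume.restrict B) :=
  ((contDiffOn_pdens hP m).continuousOn.mono hB).aemeasurable hBm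

/-- area formula, measure form -/
theorem restrict_par (hP : Par Ψ U) (m : Met n M) {B : Set (En n)} (hB : B ⊆ U)
    (hBm : MeasurableSet B) (hi : InjOn Ψ B) :
    m.vol.restrict (Ψ '' B) = Measure.map (B.domRestrict Ψ) (Measure.comap Subtype.val
      ((volume.restrict B).withDensity fun y => ENNReal.ofReal (pdens m Ψ y))) := by
  have he : MeasurableEmbedding (B.domRestrict Ψ) :=
    (hP.sm.continuousOn.mono hB).measurableEmbedding hBm hi
  ext S hS
  rw [← lintegral_indicator_one hS, ← lintegral_indicator_one hS, lintegral_par hP m hB hBm hi,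
    he.lintegral_map]
  have h1 := lintegral_subtype_comap
    (μ := (volume.restrict B).withDensity fun y => ENNReal.ofReal (pdens m Ψ y)) hBm
    (fun y => S.indicator (1 : M → ℝ≥0∞) (Ψ y))
  have h2 : ∫⁻ a : B, S.indicator (1 : M → ℝ≥0∞) (B.domRestrict Ψ a) ∂(Measure.comap Subtype.val
      ((volume.restrict B).withDensity fun y => ENNReal.ofReal (pdens m Ψ y))) = _ := h1
  rw [h2, restrict_withDensity hBm, Measure.restrict_restrict hBm, inter_self,
    lintegral_withDensity_eq_lintegral_mul_non_measurable₀ _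
      (aemeasurable_pdens hP m hB hBm).ennreal_ofReal (ae_of_all _ fun a => ENNReal.ofReal_lt_top)]
  rfl

/-- **area formula**, Bochner integral (no measurability of `f` is needed) -/
theorem integral_par {G : Type*} [NormedAddCommGroup G] [NormedSpace ℝ G] (hP : Par Ψ U)
    (m : Met n M) {B : Set (En n)} (hB : B ⊆ U) (hBm : MeasurableSet B) (hi : InjOn Ψ B)
    (f : M → G) :
    ∫ z in Ψ '' B, f z ∂m.vol = ∫ y in B, pdens m Ψ y • f (Ψ y) := by
  have he : MeasurableEmbedding (B.domRestrict Ψ) :=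
    (hP.sm.continuousOn.mono hB).measurableEmbedding hBm hi
  rw [restrict_par hP m hB hBm hi, he.integral_map]
  have h1 := integral_subtype_comap
    (μ := (volume.restrict B).withDensity fun y => ENNReal.ofReal (pdens m Ψ y)) hBm
    (fun y => f (Ψ y))
  have h2 : ∫ a : B, f (B.domRestrict Ψ a) ∂(Measure.comap Subtype.val
      ((volume.restrict B).withDensity fun y => ENNReal.ofReal (pdens m Ψ y))) = _ := h1
  rw [h2, restrict_withDensity hBm, Measure.restrict_restrict hBm, inter_self]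
  have h3 := integral_withDensity_eq_integral_smul₀ (μ := volume.restrict B)
    (f := fun a => Real.toNNReal (pdens m Ψ a))
    (aemeasurable_pdens hP m hB hBm).real_toNNReal (fun a => f (Ψ a))
  have h4 : (fun a : En n => ENNReal.ofReal (pdens m Ψ a)) =
      fun a => ((Real.toNNReal (pdens m Ψ a) : ℝ≥0) : ℝ≥0∞) := rfl
  rw [h4, h3]
  refine setIntegral_congr_fun hBm (fun a _ => ?_)
  simp only [NNReal.smul_def, Real.coe_toNNReal _ (pdens_nonneg m Ψ a)]

theorem integrableOn_par_iff {G : Type*} [NormedAddCommGroup G] [NormedSpace ℝ G] (hP : Par Ψ U)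
    (m : Met n M) {B : Set (En n)} (hB : B ⊆ U) (hBm : MeasurableSet B) (hi : InjOn Ψ B)
    (f : M → G) :
    IntegrableOn f (Ψ '' B) m.vol ↔ IntegrableOn (fun y => pdens m Ψ y • f (Ψ y)) B := by
  have he : MeasurableEmbedding (B.domRestrict Ψ) :=
    (hP.sm.continuousOn.mono hB).measurableEmbedding hBm hi
  rw [IntegrableOn, restrict_par hP m hB hBm hi, he.integrable_map_iff]
  set ν := (volume.restrict B).withDensity fun y => ENNReal.ofReal (pdens m Ψ y) with hν
  have h2 : ν.restrict B = ν := by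
    rw [hν, restrict_withDensity hBm, Measure.restrict_restrict hBm, inter_self]
  have h1 : Integrable (f ∘ B.domRestrict Ψ) (Measure.comap Subtype.val ν) ↔
      Integrable (fun a => f (Ψ a)) ν := by
    have h3 := (MeasurableEmbedding.subtype_coe hBm).integrable_map_iff
      (μ := Measure.comap Subtype.val ν) (g := fun a => f (Ψ a))
    rw [(MeasurableEmbedding.subtype_coe hBm).map_comap, Subtype.range_coe, h2] at h3
    exact h3.symm
  rw [h1, hν]
  have h4 : (fun a : En n => ENNReal.ofReal (pdens m Ψ a)) =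
      fun a => ((Real.toNNReal (pdens m Ψ a) : ℝ≥0) : ℝ≥0∞) := rfl
  rw [h4, integrable_withDensity_iff_integrable_smul₀
    (aemeasurable_pdens hP m hB hBm).real_toNNReal]
  refine integrable_congr (ae_of_all _ fun a => ?_)
  simp only [NNReal.smul_def, Real.coe_toNNReal _ (pdens_nonneg m Ψ a)]

/-- a function supported in the image of an injective parametrisation -/
theorem integral_par_of_support {G : Type*} [NormedAddCommGroup G] [NormedSpace ℝ G]
    (hP : Par Ψ U) (m : Met n M) {B : Set (En n)} (hB : B ⊆ U) (hBm : MeasurableSet B)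
    (hi : InjOn Ψ B) (f : M → G) (hf : ∀ z, z ∉ Ψ '' B → f z = 0) :
    ∫ z, f z ∂m.vol = ∫ y in B, pdens m Ψ y • f (Ψ y) := by
  rw [← integral_par hP m hB hBm hi]
  exact (setIntegral_eq_integral_of_forall_compl_eq_zero hf).symm

/-- the area inequality, without injectivity -/
theorem lintegral_par_le (hP : Par Ψ U) (m : Met n M) {B : Set (En n)} (hB : B ⊆ U)
    (hBm : MeasurableSet B) (f : M → ℝ≥0∞) :
    ∫⁻ z in Ψ '' B, f z ∂m.vol ≤ ∫⁻ y in B, ENNReal.ofReal (pdens m Ψ y) * f (Ψ y) := by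
  rcases B.eq_empty_or_nonempty with rfl | hne
  · simp
  choose! N hNo hNm hNi using fun y (hy : y ∈ U) => par_locInj hP m hy
  obtain ⟨c, hcB, hc, hcov⟩ := TopologicalSpace.countable_cover_nhdsWithin (s := B) (f := N)
    fun y hy => mem_nhdsWithin_of_mem_nhds ((hNo y (hB hy)).mem_nhds (hNm y (hB hy)))
  have hcne : c.Nonempty := by
    obtain ⟨y, hy⟩ := hne
    obtain ⟨z, hz, -⟩ := mem_iUnion₂.1 (hcov hy)
    exact ⟨z, hz⟩
  obtain ⟨q, hq⟩ := hc.exists_eq_range hcne
  have hqU : ∀ i, q i ∈ U := fun i => hB (hcB (hq ▸ mem_range_self i))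
  set D : ℕ → Set (En n) := fun i => B ∩ disjointed (fun i => N (q i)) i with hD
  have hDm : ∀ i, MeasurableSet (D i) := fun i =>
    hBm.inter (MeasurableSet.disjointed (fun j => (hNo _ (hqU j)).measurableSet) i)
  have hDd : Pairwise (Function.onFun Disjoint D) := fun i j hij =>
    (disjoint_disjointed (fun i => N (q i)) hij).mono inter_subset_right inter_subset_right
  have hDU : ⋃ i, D i = B := by
    rw [hD, ← inter_iUnion, iUnion_disjointed]
    refine inter_eq_left.2 fun y hy => ?_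
    obtain ⟨z, hz, hyz⟩ := mem_iUnion₂.1 (hcov hy)
    rw [hq] at hz
    obtain ⟨i, rfl⟩ := hz
    exact mem_iUnion.2 ⟨i, hyz⟩
  conv_lhs => rw [← hDU, image_iUnion]
  conv_rhs => rw [← hDU, lintegral_iUnion hDm hDd]
  refine (lintegral_iUnion_le _ _).trans (le_of_eq (tsum_congr fun i => ?_))
  exact lintegral_par hP m (inter_subset_left.trans hB) (hDm i)
    ((hNi _ (hqU i)).mono (inter_subset_right.trans (disjointed_subset _ i))) f

theorem vol_par_le (hP : Par Ψ U) (m : Met n M) {B : Set (En n)} (hB : B ⊆ U)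
    (hBm : MeasurableSet B) : m.vol (Ψ '' B) ≤ ∫⁻ y in B, ENNReal.ofReal (pdens m Ψ y) := by
  simpa using lintegral_par_le hP m hB hBm fun _ => 1

end Crest.Agent.N207.V

end
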