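import Crest.Agent.N207.V.Gbv
import Crest.Agent.N207.AI.EvoC
import Crest.Agent.N207.AI.Par2

/-!
# Row 207 (helper97): the boundary term of the Gauss-Bonnet variation in coordinates
-/

set_option autoImplicit false
set_option linter.unusedSectionVars false

open scoped ContDiff Manifold Topology
open Set Filter MeasureTheory
open Crest.GeometryTopology.CoordMetric Crest.GeometryTopology.ChartCurvature
  Crest.GeometryTopology.MetricFamily
open Crest.Agent.R247 Crest.Agent.R202.Tens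

noncomputable section

namespace Crest.Agent.N207.V

section Coord

variable {n k : ℕ} {G G' : MetricField n} {U V W : Set (En n)} {y : En n} {Φ : En n → En n}

/-- cyclic permutation of three slots -/
def pC3 : Equiv.Perm (Fin 3) := ⟨![1, 2, 0], ![2, 0, 1], by decide, by decide⟩
/-- reversal of three slots -/
def pR3 : Equiv.Perm (Fin 3) := ⟨![2, 1, 0], ![2, 1, 0], by decide, by decide⟩
/-- exchange of the first two of three slots -/
def pS3 : Equiv.Perm (Fin 3) := ⟨![1, 0, 2], ![1, 0, 2], by decide, by decide⟩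

/-- `Ω_{klm} = ∇_l Ric_{mk} - ∇_m Ric_{lk}` -/
def omT (G : MetricField n) : Tn n 3 :=
  prmT pC3 (cov G (ricT G)) - prmT pR3 (cov G (ricT G))

/-- a quarter of the boundary term -/
def wqT (G : MetricField n) : Tn n 1 :=
  conT G (omT G) (rmT G) - (2 : ℝ) • conT G (ricT G) (prmT pS3 (omT G))
    + (2 : ℝ) • conT G (trT (k := 1) G (omT G)) (ricT G)
    - smT (scalarCurv G) (trT (k := 1) G (omT G))

/-- `|Rm|² - 4 |Ric|² + R²` -/
def pfT (G : MetricField n) (y : En n) : ℝ :=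
  nsq G (rmT G) y - 4 * nsq G (ricT G) y + scalarCurv G y ^ 2

theorem smT_prmT (σ : Equiv.Perm (Fin k)) {T : Tn n k} (hT : SmT T U) : SmT (prmT σ T) U :=
  fun _ => hT _

theorem smT_om (hG : IsRiemannianOn G U) : SmT (omT G) U :=
  (smT_prmT _ ((SmT.ricT hG).cov hG)).sub (smT_prmT _ ((SmT.ricT hG).cov hG))

theorem smT_wq (hG : IsRiemannianOn G U) : SmT (wqT G) U :=
  (((SmT.conT hG (smT_om hG) (SmT.rmT hG)).sub
    ((SmT.conT hG (SmT.ricT hG) (smT_prmT _ (smT_om hG))).smul 2)).add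
    ((SmT.conT hG (SmT.trT hG (smT_om hG)) (SmT.ricT hG)).smul 2)).sub
    (SmT.smT (sm_scal hG) (SmT.trT hG (smT_om hG)))

theorem rel_om (p : Pull G' G Φ V W) : Rel Φ V (omT G') (omT G) :=
  (((Rel.ricT p).cov p (SmT.ricT p.riem)).prmT _).sub
    (((Rel.ricT p).cov p (SmT.ricT p.riem)).prmT _)

theorem rel_wq (p : Pull G' G Φ V W) : Rel Φ V (wqT G') (wqT G) :=
  ((((rel_om p).conT p (Rel.rmT p)).sub
    (((Rel.ricT p).conT p ((rel_om p).prmT _)).smul 2)).add
    ((((rel_om p).trT p).conT p (Rel.ricT p)).smul 2)).sub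
    (Rel.smT (fun _ hy => AI.scalarCurv_pull p hy) ((rel_om p).trT p))

theorem pfT_pull (p : Pull G' G Φ V W) (hy : y ∈ V) : pfT G' y = pfT G (Φ y) := by
  have h1 : nsq G' (rmT G') y = nsq G (rmT G) (Φ y) := AI.nsq_covN_rm_pull p hy 0
  have h2 : nsq G' (ricT G') y = nsq G (ricT G) (Φ y) := AI.nsq_covN_ric_pull p hy 0
  rw [pfT, pfT, h1, h2, AI.scalarCurv_pull p hy]

theorem div_wq_pull (p : Pull G' G Φ V W) (hy : y ∈ V) :
    divT G' (wqT G') y ![] = divT G (wqT G) (Φ y) ![] :=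
  ((rel_wq p).divT p (smT_wq p.riem)).val hy

/-- the norm of a tensor -/
abbrev nr (G : MetricField n) (T : Tn n k) (y : En n) : ℝ := √(nsq G T y)

section Nr

variable (hG : IsRiemannianOn G U) (hy : y ∈ U)
include hG hy

theorem nr_add (S T : Tn n k) : nr G (S + T) y ≤ nr G S y + nr G T y :=
  Ar.sqrt_add_le (hG.posDef y hy) (S y) (T y)

theorem nr_sub (S T : Tn n k) : nr G (S - T) y ≤ nr G S y + nr G T y :=
  Ar.sqrt_sub_le (hG.posDef y hy) (S y) (T y)

omit hG hy in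
theorem nr_smul (c : ℝ) (T : Tn n k) : nr G (c • T) y = |c| * nr G T y := Ar.sqrt_smul c (T y)

omit hG hy in
theorem nr_smT (f : En n → ℝ) (T : Tn n k) : nr G (smT f T) y = |f y| * nr G T y :=
  Ar.sqrt_smul (f y) (T y)

omit hG hy in
theorem nr_prm (σ : Equiv.Perm (Fin k)) (T : Tn n k) : nr G (prmT σ T) y = nr G T y :=
  congrArg Real.sqrt (AI.nsq_ren σ T y)

theorem nr_con (S : Tn n k) (T : Tn n (k + 1)) : nr G (conT G S T) y ≤ nr G S y * nr G T y := by
  rw [← Real.sqrt_mul (AI.nsq_nonneg hG hy S)]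
  exact Real.sqrt_le_sqrt (AI.nsq_conT_le hG hy S T)

theorem nr_tr (T : Tn n (k + 2)) : nr G (trT G T) y ≤ √n * nr G T y := by
  rw [← Real.sqrt_mul (Nat.cast_nonneg n)]
  exact Real.sqrt_le_sqrt (AI.nsq_trT_le hG hy T)

theorem nr_ric : nr G (ricT G) y ≤ √n * nr G (rmT G) y := by
  rw [← Real.sqrt_mul (Nat.cast_nonneg n)]
  exact Real.sqrt_le_sqrt (AI.nsq_covN_ric_le hG hy 0)

theorem abs_scal_le : |scalarCurv G y| ≤ √n * nr G (ricT G) y := by
  rw [← Real.sqrt_mul (Nat.cast_nonneg n)]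
  exact Real.abs_le_sqrt (AI.scal_sq_le hG hy)

theorem nr_om : nr G (omT G) y ≤ 2 * nr G (cov G (ricT G)) y := by
  have h := nr_sub hG hy (prmT pC3 (cov G (ricT G))) (prmT pR3 (cov G (ricT G)))
  rw [nr_prm, nr_prm] at h
  rw [two_mul]; exact h

end Nr

theorem sqrt_four : √((4 : ℕ) : ℝ) = 2 := by
  rw [show ((4 : ℕ) : ℝ) = 2 ^ 2 by norm_num, Real.sqrt_sq zero_le_two]

theorem nr_wq {G : MetricField 4} {U : Set E4} {y : E4} (hG : IsRiemannianOn G U) (hy : y ∈ U) :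
    nr G (wqT G) y ≤ 42 * (nr G (rmT G) y * nr G (cov G (ricT G)) y) := by
  have h1 := nr_con hG hy (omT G) (rmT G)
  have h2 := nr_con hG hy (ricT G) (prmT pS3 (omT G))
  have h3 := nr_con hG hy (trT (k := 1) G (omT G)) (ricT G)
  have h4 := nr_tr (k := 1) hG hy (omT G)
  have h5 := nr_ric hG hy
  have h6 := abs_scal_le hG hy
  have h7 := nr_om hG hy
  rw [nr_prm] at h2
  rw [sqrt_four] at h4 h5 h6
  have h8 := (nr_sub hG hy _ (smT (scalarCurv G) (trT (k := 1) G (omT G)))).trans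
    (add_le_add_left ((nr_add hG hy _ ((2 : ℝ) • conT G (trT (k := 1) G (omT G)) (ricT G))).trans
      (add_le_add_left (nr_sub hG hy (conT G (omT G) (rmT G))
        ((2 : ℝ) • conT G (ricT G) (prmT pS3 (omT G)))) _)) _)
  rw [nr_smul, nr_smul, nr_smT, abs_two] at h8
  refine h8.trans ?_
  set a := nr G (rmT G) y
  set d := nr G (cov G (ricT G)) y
  set o := nr G (omT G) y
  set q := nr G (ricT G) y
  set τ := nr G (trT (k := 1) G (omT G)) y
  have ha : 0 ≤ a := Real.sqrt_nonneg _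
  have ho : 0 ≤ o := Real.sqrt_nonneg _
  have hq : 0 ≤ q := Real.sqrt_nonneg _
  have hτ : 0 ≤ τ := Real.sqrt_nonneg _
  have e1 : o * a ≤ 2 * d * a := mul_le_mul_of_nonneg_right h7 ha
  have e2 : q * o ≤ 2 * a * o := mul_le_mul_of_nonneg_right h5 ho
  have e3 : τ * q ≤ 2 * o * (2 * a) := mul_le_mul h4 h5 hq (by positivity)
  have e4 : |scalarCurv G y| * τ ≤ 4 * a * (2 * o) :=
    mul_le_mul (by linarith) h4 hτ (by positivity)
  nlinarith

end Coord

/-- the variation formula at the points where the metric is the identity -/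
def CGb : Prop := ∀ {G : ℝ → MetricField 4} {J : Set ℝ} {U : Set E4}, CFlow G J U →
  ∀ t ∈ J, ∀ y ∈ U, G t y = 1 → HasDerivAt (fun s => pfT (G s) y)
    (scalarCurv (G t) y * pfT (G t) y + 4 * divT (G t) (wqT (G t)) y ![]) t

theorem CGb.all (h : CGb) {G : ℝ → MetricField 4} {J : Set ℝ} {U : Set E4} (c : CFlow G J U)
    {t : ℝ} (ht : t ∈ J) {y : E4} (hy : y ∈ U) : HasDerivAt (fun s => pfT (G s) y)
      (scalarCurv (G t) y * pfT (G t) y + 4 * divT (G t) (wqT (G t)) y ![]) t := by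
  obtain ⟨G', Φ, V, c', hp, h0, rfl, h1⟩ := AI.cflow_norm c ht hy
  have h2 := h c' t ht 0 h0 h1
  rw [AI.scalarCurv_pull (hp t ht) h0, pfT_pull (hp t ht) h0, div_wq_pull (hp t ht) h0] at h2
  refine h2.congr_of_eventuallyEq ?_
  filter_upwards [c.isOpenJ.mem_nhds ht] with s hs using (pfT_pull (hp s hs) h0).symm

variable {M : Type*} [TopologicalSpace M] [ChartedSpace E4 M] [IsManifold 𝓘(ℝ, E4) ∞ M]

theorem gbvp_of (h : CGb) (F : Flow M) : GBVp F := by
  refine ⟨168, by norm_num, fun t ht => ⟨(4 : ℝ) • fun x => wqT ((F.m t).G x), ?_, fun x => ⟨?_, ?_⟩⟩⟩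
  · exact IsGlob.smul 4 ⟨fun x => smT_wq ((F.m t).isRiem x),
      fun x₀ x₁ => rel_wq ((F.m t).pull_trans x₀ x₁)⟩
  · have h1 := h.all (F.cflow x) ht (ctr_mem x)
    refine HasDerivAt.congr_deriv h1 ?_
    change _ = _ + divT ((F.m t).G x) ((4 : ℝ) • wqT ((F.m t).G x)) (ctr 4 x) ![]
    rw [divT_smul]
    rfl
  · have hG := (F.m t).isRiem x
    have h1 := nr_wq hG (ctr_mem x)
    have h2 := nr_smul (G := (F.m t).G x) (y := ctr 4 x) 4 (wqT ((F.m t).G x))
    have h3 : nr ((F.m t).G x) ((4 : ℝ) • wqT ((F.m t).G x)) (ctr 4 x) ≤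
        168 * (√((F.m t).rm 0 x) * √((F.m t).rc 1 x)) := by
      rw [h2, abs_of_pos (by norm_num : (0 : ℝ) < 4)]
      change _ ≤ 168 * (nr ((F.m t).G x) (rmT ((F.m t).G x)) (ctr 4 x) *
        nr ((F.m t).G x) (cov ((F.m t).G x) (ricT ((F.m t).G x))) (ctr 4 x))
      linarith
    have h4 := pow_le_pow_left₀ (Real.sqrt_nonneg _) h3 2
    rw [Real.sq_sqrt (AI.nsq_nonneg hG (ctr_mem x) _), mul_pow, mul_pow,
      Real.sq_sqrt (x := (F.m t).rm 0 x) (nsq_nonneg _ _ _),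
      Real.sq_sqrt (x := (F.m t).rc 1 x) (nsq_nonneg _ _ _), ← mul_assoc] at h4
    exact h4

end Crest.Agent.N207.V

end
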