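import Crest.Agent.N207.V.Gv1
import Crest.Agent.N207.V.Gv2
import Crest.Agent.N207.A.Tg2

/-!
# Row 207 (helper97): `HC.GBV` for a Ricci flow
-/

set_option autoImplicit false
set_option linter.unusedSectionVars false

open scoped ContDiff Manifold Topology
open Set Filter MeasureTheory
open Crest.GeometryTopology.CoordMetric Crest.GeometryTopology.ChartCurvature
  Crest.GeometryTopology.MetricFamily
open Crest.Agent.N207.A

noncomputable section

namespace Crest.Agent.N207.V

section Dict

variable {n k : ℕ} {J : Set ℝ} {U : Set (En n)} {G : ℝ → MetricField n}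

theorem repT_two {A : Ten n (SR J U) k} {T : ℝ → Tn n k} (h : RepT A T) :
    RepT ((2 : SR J U) • A) fun t => (2 : ℝ) • T t := fun I => (h I).two_mul

theorem repT_sw3 {A : Ten n (SR J U) 3} {T : ℝ → Tn n 3} (h : RepT A T) :
    RepT (sw (p := 1) A) fun t => prmT pS3 (T t) := fun I => by
  have e : (Fin.cons (I 1) (Fin.cons (I 0) (Fin.tail (Fin.tail I))) : Fin 3 → Fin n) = I ∘ pS3 := by
    funext i; fin_cases i <;> rfl
  have := h (I ∘ pS3)
  rw [← e] at this
  exact this.congr fun t _ y _ => by rw [e]; rfl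

variable (c : CFam G J U) (o : Ok J U)

theorem repT_om : RepT (co c o).Om fun t => omT (G t) := by
  have h : (co c o).Om = prm eC3 ((co c o).cov (co c o).ricT) - prm eR3 ((co c o).cov (co c o).ricT) :=
    ext3 fun k l m => by rw [Co.Om_eq, Pi.sub_apply, prm_eC3, prm_eR3]
  rw [h]
  exact fun I => ((repT_ric c o).cov c o (I ∘ pC3)).sub ((repT_ric c o).cov c o (I ∘ pR3))

theorem repT_wq : RepT (co c o).wq fun t => wqT (G t) :=
  ((((repT_om c o).con c o (repT_rm c o)).sub
    (repT_two ((repT_ric c o).con c o (repT_sw3 (repT_om c o))))).add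
    (repT_two (((repT_om c o).tr c o).con c o (repT_ric c o)))).sub
    (RepT.smT (rep_scal c o) ((repT_om c o).tr c o))

theorem rep_pf : Rep (co c o).pf fun t y => pfT (G t) y := fun t y ht hy => by
  rw [Co.pf, map_add, map_sub, map_mul, map_pow, map_ofNat, (repT_rm c o).nsq c o ht hy,
    (repT_ric c o).nsq c o ht hy, rep_scal c o ht hy]
  rfl

theorem ev_gi_one {t : ℝ} {y : En n} (ht : t ∈ J) (hy : y ∈ U) (h1 : G t y = 1) (a b : Fin n) :
    evp ht hy ((co c o).gi a b) = if a = b then 1 else 0 := by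
  change (G t y)⁻¹ a b = _
  rw [h1, inv_one, Matrix.one_apply]

end Dict

theorem cgb : CGb := by
  intro G J U c t ht y hy h1
  have w := WF.of_cflow c
  have h2 := ((rep_pf w.1 w.ok).hasDeriv w.ok ht hy).hasDerivAt (c.isOpenJ.mem_nhds ht)
  have h3 := w.R.ev_dt_pf (evp ht hy) (ev_gi_one w.1 w.ok ht hy h1)
  refine h2.congr_deriv (h3.trans ?_)
  have e1 := rep_scal w.1 w.ok ht hy
  have e2 := rep_pf w.1 w.ok ht hy
  have e3 := (repT_wq w.1 w.ok).divT w.1 w.ok Fin.elim0 ht hy
  rw [WF.R_toCo, e1, e2, e3]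
  rfl

variable {M : Type*} [TopologicalSpace M] [ChartedSpace E4 M] [IsManifold 𝓘(ℝ, E4) ∞ M]

/-- the pointwise variation of the Gauss-Bonnet integrand -/
theorem gbvp (F : Flow M) : GBVp F := gbvp_of cgb F

variable [T3Space M] [ConnectedSpace M] [MeasurableSpace M] [BorelSpace M] [CompactSpace M]
  [SecondCountableTopology M]

/-- **`HC.GBV` for a Ricci flow** -/
theorem gbv (F : Flow M) : F.hc.GBV := gbv_of F (gbvp F)

end Crest.Agent.N207.V

end
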