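import Crest.Agent.N207.V.Hs2
import Crest.Agent.N207.V.Gv3
import Crest.Agent.N207.AI.Evo
import Crest.Agent.N207.AI.Glob2
import Crest.Agent.N207.G.Tr
import Crest.Agent.N207.G.Hes

/-!
# Row 207 (helper97): `HC.Hes` for a Ricci flow
-/

set_option autoImplicit false
set_option linter.unusedSectionVars false

open scoped ContDiff Manifold Topology
open Set Filter MeasureTheory
open Crest.GeometryTopology.CoordMetric Crest.GeometryTopology.ChartCurvature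
  Crest.GeometryTopology.MetricFamily
open Crest.Agent.R247 Crest.Agent.R202.Tens Crest.Agent.N207.A

noncomputable section

namespace Crest.Agent.N207.V

section Coord

variable {n : ℕ} {G : MetricField n} {U : Set (En n)} {y : En n} {f : En n → ℝ}

/-- `Hess f - c g` -/
def hsT (G : MetricField n) (f : En n → ℝ) (c : ℝ) : Tn n 2 := hessT G f - c • N207.matT G

theorem nsq_hsT (hG : IsRiemannianOn G U) (hy : y ∈ U) (hf : ContDiffOn ℝ ∞ f U) (c : ℝ) :
    nsq G (hsT G f c) y = nsq G (hessT G f) y - 2 * c * laplaceBeltrami G f y + n * c ^ 2 := by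
  have h1 : nsq G (hsT G f c) y = _ :=
    Ar.ipA_sub_self (hG.posDef y hy) (hessT G f y) (c • N207.matT G y)
  have h2 := AI.ip_matT hG hy (hessT G f)
  have h3 := AI.nsq_matT hG hy
  rw [← lapB_eq_trT hG hy (c2At hf hG.isOpen hy), N207.ip_comm hG hy] at h2
  simp only [nsq, N207.ip] at h2 h3
  rw [h1, Ar.ipA_smul_right, Ar.ipA_smul_left, Ar.ipA_smul_right, h2, h3, nsq, N207.ip]
  ring

theorem cov_hsT (hG : IsRiemannianOn G U) (hy : y ∈ U) (hf : ContDiffOn ℝ ∞ f U) (c : ℝ) :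
    cov G (hsT G f c) y = cov G (hessT G f) y := by
  rw [hsT, cov_sub ((SmT.hessT hG hf).dAt hG.isOpen hy) (((SmT.met hG).smul c).dAt hG.isOpen hy),
    cov_smul, Pi.smul_apply, cov_met hG hy, smul_zero, sub_zero]

theorem conT_met (hG : IsRiemannianOn G U) (hy : y ∈ U) (w : Tn n 1) (l : Fin n) :
    conT G w (N207.matT G) y ![l] = w y ![l] := by
  rw [conT_apply, ipA_one, ← g_ginv_sum hG hy l fun a => w y ![a]]
  simp only [Finset.mul_sum]
  rw [Finset.sum_comm]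
  refine Finset.sum_congr rfl fun b _ => Finset.sum_congr rfl fun a _ => ?_
  rw [ginv_symm hG hy a b]
  change _ * (_ * G y l b) = _
  ring

theorem kato_hsT (hG : IsRiemannianOn G U) (hy : y ∈ U) (hf : ContDiffOn ℝ ∞ f U) (c : ℝ) :
    Bo84.gam G (fun z => Bo84.gam G f f z - 2 * c * f z) (fun z => Bo84.gam G f f z - 2 * c * f z) y
      ≤ 4 * Bo84.gam G f f y * nsq G (hsT G f c) y := by
  have h1 : N207.dT (fun z => Bo84.gam G f f z - 2 * c * f z) y
      = (2 : ℝ) • conT G (N207.dT f) (hsT G f c) y := by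
    have e : Bo84.gam G f f = nsq G (N207.dT f) := funext fun z => (N207.ip_dT G f f z).symm
    have h2 := dT_nsq hG hy ((SmT.dT hG.isOpen hf).dAt hG.isOpen hy)
    refine arr1_ext fun l => ?_
    have h3 : pderiv l (nsq G (N207.dT f)) y = 2 * conT G (N207.dT f) (hessT G f) y ![l] :=
      congrFun h2 ![l]
    have h4 : conT G (N207.dT f) (hsT G f c) y ![l] = conT G (N207.dT f) (hessT G f) y ![l]
        - c * conT G (N207.dT f) (N207.matT G) y ![l] := by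
      rw [conT_apply, conT_apply, conT_apply, ← ipA_smul_right, ← ipA_sub_right]; rfl
    have h5 : N207.dT (fun z => Bo84.gam G f f z - 2 * c * f z) y ![l]
        = pderiv l (Bo84.gam G f f) y - 2 * c * pderiv l f y := by
      rw [← pd_cmul, ← pd_sub l (dAt (N207.sm_gam hG hf hf) hG.isOpen hy)
        ((dAt hf hG.isOpen hy).const_mul _)]
      rfl
    rw [h5, e, h3, Pi.smul_apply, h4, conT_met hG hy, smul_eq_mul]
    change _ = 2 * (_ - c * pderiv l f y)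
    ring
  have h2 := AI.nsq_conT_le hG hy (N207.dT f) (hsT G f c)
  rw [← N207.ip_dT, ← N207.ip_dT, N207.ip, h1, Ar.ipA_smul_left, Ar.ipA_smul_right]
  simp only [nsq, N207.ip] at h2 ⊢
  linarith

theorem covN_three (G : MetricField n) (f : En n → ℝ) :
    covN G (N207.fnT f) 3 = cov G (hessT G f) := by
  change cov G (cov G (cov G (N207.fnT f))) = _
  rw [cov_fnT]; rfl

theorem repT_hs {J : Set ℝ} {G : ℝ → MetricField n} (c : CFam G J U) (o : Ok J U) {φ : SR J U}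
    {u : ℝ → En n → ℝ} (h : Rep φ u) (a : ℝ) :
    RepT ((co c o).hsC φ a) fun t => hsT (G t) (u t) a :=
  (h.hessT c o).sub ((repT_g c o).const_smul a)

end Coord

section Flow

variable {n : ℕ} {J : Set ℝ} {U : Set (En n)} {G : ℝ → MetricField n} {t : ℝ} {y : En n}

theorem c_heat (w : WF G J U) {u : ℝ → En n → ℝ} (hu : St u J U)
    (hd : ∀ s ∈ J, ∀ z ∈ U, HasDerivWithinAt (fun r => u r z) (laplaceBeltrami (G s) (u s) z) J s)
    (c : ℝ) (ht : t ∈ J) (hy : y ∈ U) (h1 : G t y = 1) :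
    ∃ D, HasDerivWithinAt (fun s => nsq (G s) (hsT (G s) (u s) c) y) D J t ∧
      D - laplaceBeltrami (G t) (nsq (G t) (hsT (G t) (u t) c)) y ≤
        -2 * nsq (G t) (cov (G t) (hessT (G t) (u t))) y +
        4 * (√(nsq (G t) (rmT (G t)) y) * nsq (G t) (hsT (G t) (u t) c) y +
          |c| * √(nsq (G t) (ricT (G t)) y) * √(nsq (G t) (hsT (G t) (u t) c) y)) := by
  have h := rep_mkS hu
  have hf : w.R.dt (mkS u hu) = w.R.lap0 (mkS u hu) :=
    (h.dT w.ok hd).ext (h.lap0 w.1 w.ok) fun _ _ _ _ => rfl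
  have key := w.R.hs_heat (evp ht hy) (ev_gi_one w.1 w.ok ht hy h1) hf (evp_algebraMap ht hy c)
  have hp := (repT_hs w.1 w.ok h c).nsq w.1 w.ok
  refine ⟨_, hp.hasDeriv w.ok ht hy, ?_⟩
  have e1 := hp.lap0 w.1 w.ok ht hy
  have e2 := hp ht hy
  have e3 := (repT_rm w.1 w.ok).nsq w.1 w.ok ht hy
  have e4 := (repT_ric w.1 w.ok).nsq w.1 w.ok ht hy
  have e5 := ((h.hessT w.1 w.ok).cov w.1 w.ok).nsq w.1 w.ok ht hy
  rw [WF.R_toCo, e1, e2, e3, e4, e5] at key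
  exact key

theorem c_stat (w : WF G J U) {u : En n → ℝ} (hu : ContDiffOn ℝ ∞ u U)
    (c : ℝ) (ht : t ∈ J) (hy : y ∈ U) (h1 : G t y = 1) :
    ∃ D, HasDerivWithinAt (fun s => nsq (G s) (hsT (G s) u c) y) D J t ∧
      |D| ≤ 6 * √(nsq (G t) (hsT (G t) u c) y) *
        (√(nsq (G t) (cov (G t) (ricT (G t))) y) * √(Bo84.gam (G t) u u y)
          + √(nsq (G t) (ricT (G t)) y) * (√(nsq (G t) (hsT (G t) u c) y) + |c|)) := by
  have h := rep_mkS (st_const (J := J) hu)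
  have key := w.R.hs_stat (evp ht hy) (ev_gi_one w.1 w.ok ht hy h1) (h.dT_static w.ok)
    (evp_algebraMap ht hy c)
  have hp := (repT_hs w.1 w.ok h c).nsq w.1 w.ok
  refine ⟨_, hp.hasDeriv w.ok ht hy, ?_⟩
  have e2 := hp ht hy
  have e3 := ((repT_ric w.1 w.ok).cov w.1 w.ok).nsq w.1 w.ok ht hy
  have e4 := (repT_ric w.1 w.ok).nsq w.1 w.ok ht hy
  have e5 := h.gam w.1 w.ok h ht hy
  rw [WF.R_toCo, e2, e3, e4, e5] at key
  exact key

theorem c_lanc {G : MetricField 4} {U : Set E4} {y : E4} (hG : IsRiemannianOn G U) (hy : y ∈ U)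
    {u : E4 → ℝ} (hu : ContDiffOn ℝ ∞ u U) (h1 : G y = 1) :
    nsq G (rmT G) y * Bo84.gam G u u y ≤
      88 * (nsq G (cov G (hessT G u)) y + nsq G (ricT G) y * Bo84.gam G u u y) := by
  have c := cfam_const hG univ
  have o : Ok univ U := .of_open isOpen_univ hG.isOpen
  have ht := mem_univ (0 : ℝ)
  have h := rep_mkS (st_const (J := univ) hu)
  have key := (co c o).hs_lanc (evp ht hy) (ev_gi_one c o ht hy h1) (mkS _ (st_const hu))
  have e2 := ((h.hessT c o).cov c o).nsq c o ht hy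
  have e3 := (repT_rm c o).nsq c o ht hy
  have e4 := (repT_ric c o).nsq c o ht hy
  have e5 := h.gam c o h ht hy
  rw [e2, e3, e4, e5] at key
  exact key

end Flow

section Norm

variable {n : ℕ} {M : Type*} [TopologicalSpace M] [ChartedSpace (En n) M]
  [IsManifold 𝓘(ℝ, En n) ∞ M]

/-- a parametrisation in which the metric is the identity at the origin -/
theorem exists_par_norm (m : Met n M) (x : M) : ∃ (Ψ : En n → M) (U : Set (En n)),
    Par Ψ U ∧ 0 ∈ U ∧ Ψ 0 = x ∧ m.pm Ψ 0 = 1 := by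
  obtain ⟨e, he⟩ := Ar.exists_fr (posDef_ctr m x)
  have h0 : AI.aff (ctr n x) e 0 ∈ tg n x := by rw [AI.aff_zero]; exact ctr_mem x
  refine ⟨fun z => (chartAt (En n) x).symm (AI.aff (ctr n x) e z), AI.aff (ctr n x) e ⁻¹' tg n x,
    Gs.par_comp (Par.chart x) (AI.isOpen_aff (isOpen_tg x) _ _)
      (AI.contDiff_aff _ _).contDiffOn (fun _ hy => hy) fun z _ => ?_, h0, ?_, ?_⟩
  · rw [AI.fderiv_aff]; exact AI.linE_injective he
  · simp only [AI.aff_zero]; exact sy_ctr x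
  · ext i j
    refine (Gs.bil_single _ i j).symm.trans ?_
    rw [Gs.pm_comp_bil m (Gs.par_md (Par.chart x) h0)
      ((AI.contDiff_aff _ _).differentiable (by simp) 0), AI.fderiv_aff, AI.aff_zero,
      AI.linE_eb, AI.linE_eb, Matrix.one_apply]
    exact he.orth i j

end Norm

variable {M : Type*} [TopologicalSpace M] [ChartedSpace E4 M] [IsManifold 𝓘(ℝ, E4) ∞ M]
  [T3Space M] [ConnectedSpace M] [MeasurableSpace M] [BorelSpace M] (F : Flow M)

theorem pc_par {Ψ : E4 → M} {U : Set E4} (hP : Par Ψ U) {v : M → ℝ} (hv : Sm 4 v) (c s : ℝ)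
    {y : E4} (hy : y ∈ U) : F.hc.Pc c s v (Ψ y) =
      nsq ((F.m s).pm Ψ) (hsT ((F.m s).pm Ψ) (fun z => v (Ψ z)) c) y := by
  rw [nsq_hsT (hP.riem _) hy (hP.contDiffOn_comp hv), HC.Pc, F.hc_hh, F.hc_lap,
    hP.par_hh _ hv hy, hP.par_lap _ hv hy]
  norm_num

theorem pc_eq {v : M → ℝ} (hv : Sm 4 v) (c s : ℝ) :
    F.hc.Pc c s v = (F.m s).nsq ((F.m s).hess v - c • (F.m s).met) := funext fun x => by
  refine Eq.trans ?_ (nsq_hsT ((F.m s).isRiem x) (ctr_mem x) (hv.inCh x) c).symm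
  rw [HC.Pc, Nat.cast_ofNat]; rfl

theorem glob_hs {v : M → ℝ} (hv : Sm 4 v) (c s : ℝ) :
    IsGlob ((F.m s).hess v - c • (F.m s).met) :=
  (IsGlob.hess _ hv).sub ((F.m s).glob_met.smul c)

theorem sm_pc {v : M → ℝ} (hv : Sm 4 v) (c s : ℝ) : Sm 4 (F.hc.Pc c s v) := by
  rw [pc_eq F hv]; exact sm_nsq _ (glob_hs F hv c s)

theorem hes_kato {v : M → ℝ} (hv : Sm 4 v) (c t : ℝ) (x : M) :
    (F.m t).gam (F.hc.Pc c t v) (F.hc.Pc c t v) x ≤ 4 * F.hc.Pc c t v x * (F.m t).df 3 v x := by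
  have h := AI.m_kato (F.m t) (glob_hs F hv c t) x
  have h2 : (F.m t).nsq ((F.m t).cov ((F.m t).hess v - c • (F.m t).met)) x = (F.m t).df 3 v x := by
    have h3 := cov_hsT ((F.m t).isRiem x) (ctr_mem x) (hv.inCh x) c
    have h4 := covN_three ((F.m t).G x) (Bo84.inCh 4 x v)
    change nsq ((F.m t).G x) (cov ((F.m t).G x) (hsT ((F.m t).G x) (Bo84.inCh 4 x v) c)) (ctr 4 x) =
      nsq ((F.m t).G x) (covN ((F.m t).G x) (N207.fnT (Bo84.inCh 4 x v)) 3) (ctr 4 x)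
    rw [h4, nsq, N207.ip, h3]; rfl
  rwa [h2, ← pc_eq F hv] at h

theorem hes_lanc {v : M → ℝ} (hv : Sm 4 v) (t : ℝ) (x : M) :
    (F.m t).rm 0 x * (F.m t).gam v v x ≤
      88 * ((F.m t).df 3 v x + (F.m t).rc 0 x * (F.m t).gam v v x) := by
  obtain ⟨Ψ, U, hP, h0, rfl, h1⟩ := exists_par_norm (F.m t) x
  rw [hP.par_rm _ 0 h0, hP.par_rc _ 0 h0, hP.par_gam _ hv hv h0, hP.par_df _ hv 3 h0, covN_three]
  exact c_lanc (hP.riem _) h0 (hP.contDiffOn_comp hv) h1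

variable {F}

theorem hes_heat {a b : ℝ} {u P' : ℝ → M → ℝ} (hs : F.hc.St a b) (hu : F.hc.Heat a b u) (c : ℝ)
    (hd : HasDt a b (fun t => F.hc.Pc c t (u t)) P') {t : ℝ} (ht : t ∈ Icc a b) (x : M) :
    P' t x - (F.m t).lap (F.hc.Pc c t (u t)) x ≤ -2 * (F.m t).df 3 (u t) x +
      4 * (√((F.m t).rm 0 x) * F.hc.Pc c t (u t) x
        + |c| * √((F.m t).rc 0 x) * √(F.hc.Pc c t (u t) x)) := by
  obtain ⟨Ψ, U, hP, h0, rfl, h1⟩ := exists_par_norm (F.m t) x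
  have hsub : Icc a b ⊆ Ioo 0 F.T := fun s hs' => ⟨hs.1.trans_le hs'.1, hs'.2.trans_lt hs.2.2⟩
  have hu1 : SmST 4 u (Icc a b) := hu.1
  obtain ⟨D, hD, key⟩ := c_heat (WF.icc (hP.cflow F) hs.2.1 hsub) (hP.st_comp hu1)
    (fun s hs' z hz => hP.par_lap _ (hu1.slice hs') hz ▸ hu.2 s hs' (Ψ z)) c ht h0 h1
  have e1 : P' t (Ψ 0) = D := (uniqueDiffOn_Icc hs.2.1 t ht).eq_deriv _ (hd t ht (Ψ 0))
    (hD.congr_of_mem (fun s hs' => pc_par F hP (hu1.slice hs') c s h0) ht)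
  have e2 : laplaceBeltrami ((F.m t).pm Ψ) (fun z => F.hc.Pc c t (u t) (Ψ z)) 0 = _ :=
    Bo84.lap_congr (ev_of_on hP.isOpen h0 fun z hz => pc_par F hP (hu1.slice ht) c t hz)
  rw [hP.par_rm _ 0 h0, hP.par_rc _ 0 h0, hP.par_df _ (hu1.slice ht) 3 h0, covN_three,
    hP.par_lap _ (sm_pc F (hu1.slice ht) c t) h0, e1, e2, pc_par F hP (hu1.slice ht) c t h0]
  exact key

theorem hes_stat {a b : ℝ} {u : M → ℝ} {P' : ℝ → M → ℝ} (hs : F.hc.St a b) (hu : Sm 4 u) (c : ℝ)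
    (hd : HasDt a b (fun t => F.hc.Pc c t u) P') {t : ℝ} (ht : t ∈ Icc a b) (x : M) :
    |P' t x| ≤ 6 * √(F.hc.Pc c t u x) * (√((F.m t).rc 1 x) * √((F.m t).gam u u x)
      + √((F.m t).rc 0 x) * (√(F.hc.Pc c t u x) + |c|)) := by
  obtain ⟨Ψ, U, hP, h0, rfl, h1⟩ := exists_par_norm (F.m t) x
  have hsub : Icc a b ⊆ Ioo 0 F.T := fun s hs' => ⟨hs.1.trans_le hs'.1, hs'.2.trans_lt hs.2.2⟩
  obtain ⟨D, hD, key⟩ := c_stat (WF.icc (hP.cflow F) hs.2.1 hsub) (hP.contDiffOn_comp hu) c ht h0 h1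
  have e1 : P' t (Ψ 0) = D := (uniqueDiffOn_Icc hs.2.1 t ht).eq_deriv _ (hd t ht (Ψ 0))
    (hD.congr_of_mem (fun s _ => pc_par F hP hu c s h0) ht)
  rw [hP.par_rc _ 0 h0, hP.par_rc _ 1 h0, hP.par_gam _ hu hu h0, e1, pc_par F hP hu c t h0]
  exact key

variable (F)

/-- **`HC.Hes` for a Ricci flow** -/
theorem hes : F.hc.Hes where
  heat := ⟨88, by norm_num, fun {a b u} hs hu => by
    have hsub : Icc a b ⊆ Ioo 0 F.T := fun s hs' => ⟨hs.1.trans_le hs'.1, hs'.2.trans_lt hs.2.2⟩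
    have hu1 : SmST 4 u (Icc a b) := hu.1
    refine ⟨fun t => (F.m t).df 3 (u t), (F.smo.mono' hsub).df hu1 3,
      fun t _ x => nsq_nonneg _ _ _, fun t ht x => hes_lanc F (hu1.slice ht) t x,
      fun c => ⟨fun t ht x => hes_kato F (hu1.slice ht) c t x, fun P' hd t ht x => ?_⟩⟩
    refine (hes_heat hs hu c hd ht x).trans (add_le_add_right
      (mul_le_mul_of_nonneg_right (by norm_num) ?_) _)
    have : 0 ≤ F.hc.Pc c t (u t) x := by rw [pc_eq F (hu1.slice ht)]; exact nsq_nonneg _ _ _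
    positivity⟩
  stat := ⟨6, by norm_num, fun c _ hs hu hd t ht x => hes_stat hs hu c hd ht x⟩
  kato t _ u hu c x := by
    have hG := (F.m t).isRiem x
    have h := kato_hsT hG (ctr_mem x) (Sm.inCh hu x) c
    have e : ∀ z ∈ tg 4 x, Bo84.inCh 4 x (fun y => (F.m t).gam u u y - 2 * c * u y) z =
        Bo84.gam ((F.m t).G x) (Bo84.inCh 4 x u) (Bo84.inCh 4 x u) z - 2 * c * Bo84.inCh 4 x u z :=
      fun z hz => by rw [← (F.m t).gam_chart u u hz]; rfl
    rw [F.hc_gam, AI.gam_of_chart (F.m t) e e, pc_eq F hu]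
    exact h

end Crest.Agent.N207.V

end
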