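import Crest.Agent.N207.V.Div
import Crest.Agent.N207.AI.Glob1
import Crest.Agent.N207.AI.HcDef
import Crest.Agent.N207.A.Co3
import Crest.Agent.N207.A.Arr

/-!
# Row 207 (helper97): integration by parts for tensors, the integration step of `GBV`
-/

set_option autoImplicit false
set_option linter.unusedSectionVars false

open scoped ContDiff Manifold Topology
open Set Filter MeasureTheory
open Crest.GeometryTopology.CoordMetric Crest.GeometryTopology.ChartCurvature
  Crest.GeometryTopology.MetricFamily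
open Crest.Agent.R247 Crest.Agent.R202.Tens

noncomputable section

namespace Crest.Agent.N207.V

section Gen

variable {n k : ℕ} {M : Type*} [TopologicalSpace M] [ChartedSpace (En n) M]
  [IsManifold 𝓘(ℝ, En n) ∞ M]

/-- the inner product of two global tensors in every chart -/
theorem ip_chart (m : Met n M) {S T : CT n M k} (hS : Compat S) (hT : Compat T) {x : M}
    {y : En n} (hy : y ∈ tg n x) : m.ip S T (sy n x y) = ip (m.G x) (S x) (T x) y :=
  (Rel.ip (m.pull_trans x (sy n x y)) (hS.rel x _) (hT.rel x _) (mem_tdom hy)).symm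

theorem sm_ip (m : Met n M) {S T : CT n M k} (hS : IsGlob S) (hT : IsGlob T) :
    Sm n (m.ip S T) :=
  sm_of_inCh fun x => (SmT.ip (riem m x) (hS.sm x) (hT.sm x)).congr
    fun _ hy => ip_chart m hS.compat hT.compat hy

theorem sm_nsq (m : Met n M) {T : CT n M k} (hT : IsGlob T) : Sm n (m.nsq T) := sm_ip m hT hT

theorem sm_rm (m : Met n M) (j : ℕ) : Sm n (m.rm j) := sm_nsq m (m.glob_riem.covN m j)

theorem sm_rc (m : Met n M) (j : ℕ) : Sm n (m.rc j) := sm_nsq m (m.glob_ric.covN m j)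

theorem posDef_ctr (m : Met n M) (x : M) : (m.G x (ctr n x)).PosDef :=
  (riem m x).posDef _ (ctr_mem x)

theorem nsq_nonneg (m : Met n M) (T : CT n M k) (x : M) : 0 ≤ m.nsq T x :=
  Ar.ipA_nonneg (posDef_ctr m x) _

theorem abs_ip_le (m : Met n M) (S T : CT n M k) (x : M) :
    |m.ip S T x| ≤ √(m.nsq S x) * √(m.nsq T x) := Ar.abs_ipA_le (posDef_ctr m x) _ _

theorem ip_comm (m : Met n M) (S T : CT n M k) (x : M) : m.ip S T x = m.ip T S x :=
  Ar.ipA_comm (posDef_ctr m x) _ _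

theorem ip_dC (m : Met n M) (f h : M → ℝ) (x : M) :
    m.ip (dC n f) (dC n h) x = m.gam f h x := N207.ip_dT _ _ _ _

theorem nsq_dC (m : Met n M) (f : M → ℝ) (x : M) : m.nsq (dC n f) x = m.gam f f x :=
  ip_dC m f f x

theorem sm_gam (m : Met n M) {f h : M → ℝ} (hf : Sm n f) (hh : Sm n h) : Sm n (m.gam f h) := by
  have h1 : m.gam f h = m.ip (dC n f) (dC n h) := funext fun x => (ip_dC m f h x).symm
  rw [h1]
  exact sm_ip m (IsGlob.dC hf) (IsGlob.dC hh)

theorem IsGlob.dfT {T : CT n M k} (hT : IsGlob T) (x : M) : DfT (T x) (ctr n x) :=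
  (hT.sm x).dAt (isOpen_tg x) (ctr_mem x)

/-- `div ⟨S, W⟩ = ⟨∇S, W⟩ + ⟨S, div W⟩` on `M` -/
theorem div_con (m : Met n M) {S : CT n M k} {W : CT n M (k + 1)} (hS : IsGlob S)
    (hW : IsGlob W) (x : M) :
    valC (m.div (m.con S W)) x = m.ip (m.cov S) W x + m.ip S (m.div W) x :=
  divT_conT (riem m x) (ctr_mem x) (IsGlob.dfT hS x) (IsGlob.dfT hW x)

variable [T3Space M] [ConnectedSpace M] [MeasurableSpace M] [BorelSpace M] [CompactSpace M]
  [SecondCountableTopology M]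

theorem integrable_sm (m : Met n M) {f : M → ℝ} (hf : Sm n f) : Integrable f m.vol :=
  integrable_cont m hf.continuous

/-- **integration by parts for tensors**: `∫ ⟨S, div W⟩ = - ∫ ⟨∇S, W⟩` -/
theorem ibp_tens (m : Met n M) {S : CT n M k} {W : CT n M (k + 1)} (hS : IsGlob S)
    (hW : IsGlob W) :
    ∫ x, m.ip S (m.div W) x ∂m.vol = -∫ x, m.ip (m.cov S) W x ∂m.vol := by
  have h := int_div m (hS.con m hW)
  simp only [div_con m hS hW] at h
  rw [integral_add (integrable_sm m (sm_ip m (hS.cov m) hW))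
    (integrable_sm m (sm_ip m hS (hW.div m)))] at h
  linarith

/-- `∫ ⟨S, ΔT⟩ = - ∫ ⟨∇S, ∇T⟩` -/
theorem ibp_lapC (m : Met n M) {S T : CT n M k} (hS : IsGlob S) (hT : IsGlob T) :
    ∫ x, m.ip S (m.lapC T) x ∂m.vol = -∫ x, m.ip (m.cov S) (m.cov T) x ∂m.vol :=
  ibp_tens m hS (hT.cov m)

/-- `|∫ ψ div w| ≤ ∫ |∇ψ| B` when `|w| ≤ B` -/
theorem abs_int_div_le (m : Met n M) {w : CT n M 1} (hw : IsGlob w) {ψ B : M → ℝ} (hψ : Sm n ψ)
    (hB : Continuous B) (h : ∀ x, √(m.nsq w x) ≤ B x) :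
    |∫ x, ψ x * valC (m.div w) x ∂m.vol| ≤ ∫ x, √(m.gam ψ ψ x) * B x ∂m.vol := by
  rw [ibp_div m hw hψ, abs_neg]
  refine abs_integral_le_integral_abs.trans (integral_mono
    (integrable_sm m (sm_ip_dC m hw hψ)).abs
    (integrable_cont m ((sm_gam m hψ hψ).continuous.sqrt.mul hB)) fun x => ?_)
  refine (abs_ip_le m _ _ x).trans ?_
  rw [nsq_dC]
  exact mul_le_mul_of_nonneg_left (h x) (Real.sqrt_nonneg _)

end Gen

variable {M : Type*} [TopologicalSpace M] [ChartedSpace E4 M] [IsManifold 𝓘(ℝ, E4) ∞ M]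
  [T3Space M] [ConnectedSpace M] [MeasurableSpace M] [BorelSpace M] [CompactSpace M]
  [SecondCountableTopology M]

/-- the pointwise form of the variation of the Gauss-Bonnet integrand -/
def GBVp (F : Flow M) : Prop :=
  ∃ C, 0 ≤ C ∧ ∀ t ∈ Ioo 0 F.T, ∃ w : CT 4 M 1, IsGlob w ∧ ∀ x,
    HasDerivAt (fun s => (F.m s).pf x)
      ((F.m t).scal x * (F.m t).pf x + valC ((F.m t).div w) x) t ∧
    (F.m t).nsq w x ≤ C ^ 2 * (F.m t).rm 0 x * (F.m t).rc 1 x

/-- **the integration step of `GBV`** -/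
theorem gbv_of (F : Flow M) (h : GBVp F) : F.hc.GBV := by
  obtain ⟨C, hC, h⟩ := h
  refine ⟨C, hC, fun {a b P'} hst hP t ht ψ hψ => ?_⟩
  have ht' : t ∈ Ioo 0 F.T := ⟨hst.1.trans_le ht.1, ht.2.trans_lt hst.2.2⟩
  obtain ⟨w, hw, hx⟩ := h t ht'
  have h1 : ∀ x, P' t x - F.hc.R t x * F.hc.Pf t x = valC ((F.m t).div w) x := by
    intro x
    have h2 := (uniqueDiffOn_Icc hst.2.1 t ht).eq_deriv _ (hP t ht x)
      (hx x).1.hasDerivWithinAt
    rw [h2]
    exact add_sub_cancel_left _ _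
  simp only [h1]
  have hB : Continuous fun x => C * (√((F.m t).rm 0 x) * √((F.m t).rc 1 x)) :=
    continuous_const.mul
      ((sm_rm (F.m t) 0).continuous.sqrt.mul (sm_rc (F.m t) 1).continuous.sqrt)
  refine (abs_int_div_le (F.m t) hw hψ hB fun x => ?_).trans (le_of_eq ?_)
  · refine (Real.sqrt_le_sqrt (hx x).2).trans (le_of_eq ?_)
    rw [mul_assoc, Real.sqrt_mul (sq_nonneg C), Real.sqrt_sq hC,
      Real.sqrt_mul (x := (F.m t).rm 0 x) (nsq_nonneg _ _ _)]
  · rw [← integral_const_mul]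
    refine integral_congr_ae (Eventually.of_forall fun x => ?_)
    simp only [F.hc_gam, F.hc_N, F.hc_Q]
    ring

end Crest.Agent.N207.V

end
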