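import Crest.Agent.N207.V.Basic
import Crest.Agent.N207.AI.Nat
import Crest.Agent.N207.A.Co2

/-!
# Row 207 (helper97): the divergence theorem for 1-forms
-/

set_option autoImplicit false
set_option linter.unusedSectionVars false
set_option linter.style.haveILetI false

open scoped ContDiff Manifold Topology ENNReal NNReal
open Set Filter MeasureTheory
open Crest.GeometryTopology.CoordMetric Crest.GeometryTopology.ChartCurvature
  Crest.GeometryTopology.MetricFamily
open Crest.Agent.R247 Crest.Agent.R202.Tens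

noncomputable section

namespace Crest.Agent.N207.V

section Coord

variable {n : ℕ} {G : MetricField n} {U : Set (En n)} {y : En n} {w : Tn n 1}

/-- the vector field dual to a 1-form -/
def sh (G : MetricField n) (w : Tn n 1) (y : En n) : En n :=
  WithLp.toLp 2 fun i => ∑ j, (G y)⁻¹ i j * w y ![j]

theorem sh_apply (i : Fin n) : sh G w y i = ∑ j, (G y)⁻¹ i j * w y ![j] := rfl

theorem bil_sh (hG : IsRiemannianOn G U) (hy : y ∈ U) (Y : En n) :
    bil (G y) (sh G w y) Y = ∑ j, w y ![j] * Y j := by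
  rw [bil_symm hG hy, bil_apply]
  refine Finset.sum_congr rfl fun i _ => ?_
  have h1 : ∀ j, G y i j * Y i * sh G w y j =
      ∑ l, Y i * w y ![l] * (G y i j * inverseField G y j l) := by
    intro j
    rw [sh_apply, Finset.mul_sum]
    exact Finset.sum_congr rfl fun l _ => by rw [inverseField]; ring
  simp only [h1]
  rw [Finset.sum_comm]
  simp only [← Finset.mul_sum, Bo84.mul_inv_apply hG hy]
  simp [mul_comm]

theorem contDiffOn_sh (hG : IsRiemannianOn G U) (hw : SmT w U) (i : Fin n) :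
    ContDiffOn ℝ ∞ (fun z => sh G w z i) U := by
  simp only [sh_apply]
  exact ContDiffOn.sum fun j _ => (sm_inv hG i j).mul (hw ![j])

theorem dAt_sh (hG : IsRiemannianOn G U) (hw : SmT w U) (hy : y ∈ U) :
    DifferentiableAt ℝ (sh G w) y :=
  (Bo84.contDiffAt_toLp (F := fun i z => sh G w z i) fun i =>
    (contDiffOn_sh hG hw i).contDiffAt (hG.isOpen.mem_nhds hy)).differentiableAt (by simp)

theorem apply_eq_bil (hG : IsRiemannianOn G U) (hy : y ∈ U) (X : En n) (a : Fin n) :
    X a = ∑ b, (G y)⁻¹ a b * bil (G y) X (EuclideanSpace.single b 1) := by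
  have h1 : ∀ b, (G y)⁻¹ a b * bil (G y) X (EuclideanSpace.single b 1) =
      ∑ i, X i * (G y i b * inverseField G y b a) := by
    intro b
    rw [bil_apply, Finset.mul_sum]
    refine Finset.sum_congr rfl fun i _ => ?_
    rw [Finset.sum_eq_single b (fun c _ hc => by simp [hc]) (by simp),
      Bo84.inv_symm hG hy b a, inverseField]
    simp only [PiLp.single_apply, if_true]
    ring
  simp only [h1]
  rw [Finset.sum_comm]
  simp only [← Finset.mul_sum, Bo84.mul_inv_apply hG hy]
  simp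

/-- the divergence of a 1-form in divergence form -/
theorem divT_eq_divg (hG : IsRiemannianOn G U) (hw : SmT w U) (hy : y ∈ U) :
    divT G w y ![] = Bo84.divg G (sh G w) y := by
  rw [Bo84.divg_eq_trL hG hy (dAt_sh hG hw hy), Bo84.trL_apply, divT, trT]
  refine Finset.sum_congr rfl fun a _ => ?_
  rw [apply_eq_bil hG hy]
  refine Finset.sum_congr rfl fun b _ => ?_
  congr 1
  have h1 := Bo84.fderiv_bil hG hy (dAt_sh hG hw hy)
    (differentiableAt_const (EuclideanSpace.single b (1 : ℝ) : En n)) (EuclideanSpace.single a 1)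
  have h2 : (fun z => bil (G z) (sh G w z) (EuclideanSpace.single b 1)) =ᶠ[𝓝 y]
      fun z => w z ![b] := by
    filter_upwards [hG.isOpen.mem_nhds hy] with z hz
    rw [bil_sh hG hz, Finset.sum_eq_single b (fun c _ hc => by simp [hc]) (by simp)]
    simp
  rw [h2.fderiv_eq, Bo84.cov_apply G (fun _ => EuclideanSpace.single b 1), fderiv_fun_const,
    Pi.zero_apply, zero_apply, zero_add, bil_sh hG hy] at h1
  have h3 : ∀ j, Gam G y (EuclideanSpace.single a 1) (EuclideanSpace.single b 1) j =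
      christoffel G y j a b := by
    intro j
    rw [Gam_apply, Finset.sum_eq_single a (fun c _ hc => by simp [hc]) (by simp),
      Finset.sum_eq_single b (fun c _ hc => by simp [hc]) (by simp)]
    simp
  have h4 := cov_one G w y a b
  have h5 : cov G w y (Fin.cons a (Fin.cons b ![])) = cov G w y ![a, b] := rfl
  rw [h5, h4, pderiv, h1]
  simp only [h3, mul_comm]
  ring

theorem ip_dT (G : MetricField n) (φ : En n → ℝ) (w : Tn n 1) (y : En n) :
    ip G (dT φ) w y = ∑ i, sh G w y i * pderiv i φ y := by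
  rw [ip, ipA_one]
  refine Finset.sum_congr rfl fun i _ => ?_
  rw [sh_apply, Finset.sum_mul]
  exact Finset.sum_congr rfl fun j _ => by rw [dT]; simp only [Matrix.cons_val_zero]; ring

/-- the divergence theorem in coordinates, against a Lipschitz test function -/
theorem ibp_coord (hG : IsRiemannianOn G U) (hw : SmT w U) {φ : En n → ℝ}
    (hφ : LocallyLipschitz φ) (hc : HasCompactSupport φ) (hs : tsupport φ ⊆ U) :
    ∫ a, √(G a).det * (φ a * divT G w a ![]) = -∫ a, √(G a).det * ip G (dT φ) w a := by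
  set W : Fin n → En n → ℝ := fun j a => √(G a).det * sh G w a j with hW
  have hWs : ∀ j, ContDiffOn ℝ ∞ (W j) U := fun j => (sm_sqrt_det hG).mul (contDiffOn_sh hG hw j)
  have hWL : ∀ j, Ms322.LLo U (W j) := fun j a ha =>
    (((hWs j).contDiffAt (hG.isOpen.mem_nhds ha)).of_le
      Bo84.one_le_infty).exists_lipschitzOnWith
  have e1 : (fun a => √(G a).det * ip G (dT φ) w a) = fun a => ∑ j, W j a * pderiv j φ a := by
    funext a
    rw [ip_dT, Finset.mul_sum]
    exact Finset.sum_congr rfl fun j _ => (mul_assoc _ _ _).symm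
  have e2 : (fun a => √(G a).det * (φ a * divT G w a ![])) =
      fun a => ∑ j, pderiv j (W j) a * φ a := by
    funext a
    by_cases ha : a ∈ U
    · have h1 : Bo84.divg G (sh G w) a = (1 / √(G a).det) * ∑ j, pderiv j (W j) a := rfl
      have h2 : √(G a).det ≠ 0 := (Real.sqrt_pos.2 (Bo84.det_pos hG ha)).ne'
      rw [divT_eq_divg hG hw ha, h1, ← Finset.sum_mul]
      field_simp
    · have h0 : φ a = 0 := image_eq_zero_of_notMem_tsupport fun h => ha (hs h)
      simp [h0]
  rw [e1, e2, integral_finsetSum, integral_finsetSum, ← Finset.sum_neg_distrib]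
  · refine Finset.sum_congr rfl fun j _ => ?_
    have h := Ms322.ibp_euclid hG.isOpen (hWL j) hφ hc hs (EuclideanSpace.single j 1)
    have h' : ∫ b, W j b * pderiv j φ b = -∫ b, pderiv j (W j) b * φ b := h
    rw [h', neg_neg]
  · intro j _
    exact Ms322.integrable_mul_fderiv (hWs j).continuousOn hφ hc hs (EuclideanSpace.single j 1)
  · intro j _
    exact Ms322.integrable_mul_of_continuousOn (sm_pd hG.isOpen (hWs j) j).continuousOn
      hφ.continuous hc hs

end Coord

variable {n k : ℕ} {M : Type*} [TopologicalSpace M] [ChartedSpace (En n) M]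
  [IsManifold 𝓘(ℝ, En n) ∞ M]

theorem compat_ev {T : CT n M k} (hT : Compat T) {x₀ x₁ : M} {y : En n}
    (hy : y ∈ Bo84.tdom (n := n) x₀ x₁) : T x₀ =ᶠ[𝓝 y] pullT (Bo84.trans x₀ x₁) (T x₁) := by
  filter_upwards [(Bo84.isOpen_tdom x₀ x₁).mem_nhds hy] with z hz using hT x₀ x₁ z hz

/-- the divergence of a global 1-form in every chart -/
theorem div_chart (m : Met n M) {w : CT n M 1} (hw : IsGlob w) {x : M} {y : En n}
    (hy : y ∈ tg n x) : valC (m.div w) (sy n x y) = divT (m.G x) (w x) y ![] := by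
  have hd := mem_tdom hy
  rw [(AI.divT_congr EventuallyEq.rfl (compat_ev hw.compat hd)).eq_of_nhds,
    AI.divT_pullT (pull_trans m x (sy n x y)) hd (hw.sm _), pullT, AI.evT_zero_rank]
  rfl

theorem ip_dC_chart (m : Met n M) {w : CT n M 1} (hw : IsGlob w) {φ : M → ℝ} {x : M} {y : En n}
    (hy : y ∈ tg n x) (hφ : DifferentiableAt ℝ (Bo84.inCh n (sy n x y) φ) (ctr n (sy n x y))) :
    m.ip (dC n φ) w (sy n x y) = ip (m.G x) (dT (Bo84.inCh n x φ)) (w x) y := by
  have hd := mem_tdom hy
  have hp := pull_trans m x (sy n x y)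
  have h1 : Bo84.inCh n x φ =ᶠ[𝓝 y]
      fun z => Bo84.inCh n (sy n x y) φ (Bo84.trans x (sy n x y) z) := by
    filter_upwards [(Bo84.isOpen_tdom x (sy n x y)).mem_nhds hd] with z hz
    rw [Bo84.inCh, Bo84.inCh, Bo84.symm_trans hz]
  have h2 : dT (Bo84.inCh n x φ) y =
      pullT (Bo84.trans x (sy n x y)) (dT (Bo84.inCh n (sy n x y) φ)) y := by
    rw [(dT_congr h1).eq_of_nhds]
    exact AI.dT_pull (Bo84.pull_differentiableAt hp hd) hφ
  have h3 := AI.ip_pullT hp hd (dT (Bo84.inCh n (sy n x y) φ)) (w (sy n x y))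
  rw [ip, h2, hw.compat x _ y hd]
  exact h3.symm

theorem Sm.dAt {φ : M → ℝ} (hφ : Sm n φ) (x : M) :
    DifferentiableAt ℝ (Bo84.inCh n x φ) (ctr n x) :=
  N207.dAt (Sm.inCh hφ x) (chartAt (En n) x).open_target (ctr_mem x)

theorem sm_div (m : Met n M) {w : CT n M 1} (hw : IsGlob w) : Sm n (valC (m.div w)) := by
  refine sm_of_chart fun x => ?_
  have h1 : ContDiffOn ℝ ∞ (Bo84.inCh n x (valC (m.div w))) (tg n x) :=
    (SmT.divT (riem m x) (hw.sm x) ![]).congr fun y hy => div_chart m hw hy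
  exact h1.contDiffAt ((chartAt (En n) x).open_target.mem_nhds (ctr_mem x))

theorem sm_ip_dC (m : Met n M) {w : CT n M 1} (hw : IsGlob w) {φ : M → ℝ} (hφ : Sm n φ) :
    Sm n (m.ip (dC n φ) w) := by
  refine sm_of_chart fun x => ?_
  have h1 : ContDiffOn ℝ ∞ (Bo84.inCh n x (m.ip (dC n φ) w)) (tg n x) :=
    (SmT.ip (riem m x) (SmT.dT (chartAt (En n) x).open_target (Sm.inCh hφ x)) (hw.sm x)).congr
      fun y hy => ip_dC_chart m hw hy (Sm.dAt hφ _)
  exact h1.contDiffAt ((chartAt (En n) x).open_target.mem_nhds (ctr_mem x))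

theorem ip_dC_sum (m : Met n M) (w : CT n M 1) {ι : Type*} (t : Finset ι) {φ : ι → M → ℝ}
    (hφ : ∀ i ∈ t, Sm n (φ i)) (x : M) :
    m.ip (dC n fun z => ∑ i ∈ t, φ i z) w x = ∑ i ∈ t, m.ip (dC n (φ i)) w x := by
  simp only [Met.ip, dC, ip_dT]
  rw [Finset.sum_comm]
  refine Finset.sum_congr rfl fun j _ => ?_
  rw [← Finset.mul_sum, ← pd_sum j t fun i hi => Sm.dAt (hφ i hi) x]
  rfl

theorem ip_dC_zero (m : Met n M) (w : CT n M 1) {φ : M → ℝ} {x : M} (hx : x ∉ tsupport φ) :
    m.ip (dC n φ) w x = 0 := by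
  have h1 : Bo84.inCh n x φ =ᶠ[𝓝 (ctr n x)] fun _ => 0 := by
    have h2 : ContinuousAt (sy n x) (ctr n x) := (chartAt (En n) x).continuousAt_symm (ctr_mem x)
    have h3 : (tsupport φ)ᶜ ∈ 𝓝 (sy n x (ctr n x)) := by
      rw [sy_ctr]; exact (isClosed_tsupport φ).isOpen_compl.mem_nhds hx
    filter_upwards [h2 h3] with z hz
    exact image_eq_zero_of_notMem_tsupport (f := φ) hz
  simp only [Met.ip, dC, ip_dT, pd_congr _ h1, pd_const, mul_zero, Finset.sum_const_zero]

variable [T3Space M] [ConnectedSpace M] [MeasurableSpace M] [BorelSpace M] [CompactSpace M]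
  [SecondCountableTopology M]

/-- a Lipschitz function supported in a chart, read in the chart and extended by zero -/
theorem exists_pll (m : Met n M) (x : M) {φ : M → ℝ} (hφ : LocallyLipschitz (α := Sl m) φ)
    (hs : tsupport φ ⊆ src n x) : ∃ Φ : En n → ℝ, LocallyLipschitz Φ ∧ HasCompactSupport Φ ∧
      tsupport Φ ⊆ tg n x ∧ ∀ {a}, a ∈ tg n x → Φ =ᶠ[𝓝 a] Bo84.inCh n x φ := by
  have hc : HasCompactSupport φ := HasCompactSupport.of_compactSpace φ
  have a1 := @Ms322.locallyLipschitz_pll n (Sl m) _ _ _ _ _ _ x φ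
  have a2 := @Ms322.hasCompactSupport_pll n (Sl m) _ _ _ _ _ x φ
  have a3 := @Ms322.tsupport_pll_target n (Sl m) _ _ _ _ _ x φ
  have a4 := @Ms322.pll_eventually n (Sl m) _ _ _ _ _ x φ
  exact ⟨_, a1 hφ hc hs, a2 hc hs, fun a ha => (a3 hc hs (subset_univ _) ha).1, fun ha => a4 ha⟩

theorem ibp_div_chart (m : Met n M) {w : CT n M 1} (hw : IsGlob w) {φ : M → ℝ} (hφ : Sm n φ)
    {x : M} (hs : tsupport φ ⊆ src n x) :
    ∫ z, φ z * valC (m.div w) z ∂m.vol = -∫ z, m.ip (dC n φ) w z ∂m.vol := by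
  obtain ⟨Φ, hΦL, hΦc, hΦs, a4⟩ := exists_pll m x (Sm.locLip m hφ) hs
  have h := ibp_coord (riem m x) (hw.sm x) hΦL hΦc hΦs
  have hz : ∀ z, z ∉ src n x → φ z = 0 := fun z hz =>
    image_eq_zero_of_notMem_tsupport fun h => hz (hs h)
  have hm : MeasurableSet (tg n x) := (chartAt (En n) x).open_target.measurableSet
  rw [integral_of_support m x _ fun z h => by rw [hz z h, zero_mul],
    integral_of_support m x _ fun z h => ip_dC_zero m w fun h' => h (hs h')]
  rw [← setIntegral_eq_integral_of_forall_compl_eq_zero (s := tg n x) (fun a ha => by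
      rw [show Φ a = 0 from image_eq_zero_of_notMem_tsupport fun h => ha (hΦs h)]; simp),
    ← setIntegral_eq_integral_of_forall_compl_eq_zero (s := tg n x)
      (f := fun a => √(m.G x a).det * ip (m.G x) (dT Φ) (w x) a) (fun a ha => by
      have h0 : fderiv ℝ Φ a = 0 := Ms322.fderiv_zero_off fun h => ha (hΦs h)
      simp [ip_dT, pderiv, h0])] at h
  refine Eq.trans ?_ (h.trans (congrArg Neg.neg (Eq.symm ?_)))
  · refine setIntegral_congr_fun hm fun a ha => ?_
    have e : Φ a = φ (sy n x a) := (a4 ha).eq_of_nhds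
    simp only [smul_eq_mul, div_chart m hw ha, e, dens]
  · refine setIntegral_congr_fun hm fun a ha => ?_
    have e : dT Φ a = dT (Bo84.inCh n x φ) a := (dT_congr (a4 ha)).eq_of_nhds
    simp only [smul_eq_mul, ip_dC_chart m hw ha (Sm.dAt hφ _), dens, ip, e]

/-- **the divergence theorem**: `∫ φ div w = - ∫ ⟨dφ, w⟩` -/
theorem ibp_div (m : Met n M) {w : CT n M 1} (hw : IsGlob w) {φ : M → ℝ} (hφ : Sm n φ) :
    ∫ z, φ z * valC (m.div w) z ∂m.vol = -∫ z, m.ip (dC n φ) w z ∂m.vol := by
  obtain ⟨P⟩ := nonempty_PU (n := n) (M := M)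
  have hs : ∀ p, Sm n fun z => P.χ p z * φ z := fun p => (P.sm p).mul hφ
  have e0 : φ = fun z => ∑ p ∈ P.t, P.χ p z * φ z := by
    funext z; rw [← Finset.sum_mul, P.sum_one, one_mul]
  have e1 : (fun z => φ z * valC (m.div w) z) =
      fun z => ∑ p ∈ P.t, P.χ p z * φ z * valC (m.div w) z := by
    funext z; rw [← Finset.sum_mul, ← Finset.sum_mul, P.sum_one, one_mul]
  have e2 : m.ip (dC n φ) w = fun z => ∑ p ∈ P.t, m.ip (dC n fun z => P.χ p z * φ z) w z := by
    funext z
    rw [← ip_dC_sum m w P.t (fun p _ => hs p), ← e0]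
  rw [e1, e2, integral_finsetSum, integral_finsetSum, ← Finset.sum_neg_distrib]
  · refine Finset.sum_congr rfl fun p _ => ?_
    exact ibp_div_chart m hw (hs p) ((tsupport_mul_subset_left).trans (P.supp p))
  · exact fun p _ => integrable_cont m (sm_ip_dC m hw (hs p)).continuous
  · exact fun p _ => integrable_cont m ((hs p).continuous.mul (sm_div m hw).continuous)

/-- `∫ div w = 0` -/
theorem int_div (m : Met n M) {w : CT n M 1} (hw : IsGlob w) :
    ∫ z, valC (m.div w) z ∂m.vol = 0 := by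
  have h := ibp_div m hw (φ := fun _ => (1 : ℝ)) contMDiff_const
  have h0 : ∀ z, m.ip (dC n fun _ => (1 : ℝ)) w z = 0 := fun z => by
    have : Bo84.inCh n z (fun _ : M => (1 : ℝ)) = fun _ => 1 := rfl
    simp only [Met.ip, dC, ip_dT, this, pd_const, mul_zero, Finset.sum_const_zero]
  simpa [h0] using h

end Crest.Agent.N207.V

end
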