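import Crest.Agent.N207.V.Basic

/-!
# Row 207 (helper97): the Riemannian volume, part 2: time derivatives

`SmST` calculus (continuity, time derivative), `∂ₜ √det g = -R √det g`,
`d/dt ∫ f dvol = ∫ (∂ₜ f - R f) dvol`, comparison of the volumes at two times.
-/

set_option autoImplicit false
set_option linter.unusedSectionVars false
set_option linter.style.haveILetI false

open scoped ContDiff Manifold Topology ENNReal NNReal
open Set Filter MeasureTheory
open Crest.GeometryTopology.CoordMetric Crest.GeometryTopology.ChartCurvature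
  Crest.GeometryTopology.MetricFamily
open Crest.Agent.R247 Crest.Agent.R202.Tens

noncomputable section

namespace Crest.Agent.N207.V

/-- derivative of a parametric integral within a convex set of times -/
theorem hasDerivWithinAt_integral {X : Type*} [MeasurableSpace X] {μ : Measure X}
    [IsFiniteMeasure μ] {F F' : ℝ → X → ℝ} {J : Set ℝ} (hJ : Convex ℝ J) {t C : ℝ} (ht : t ∈ J)
    (hm : ∀ s ∈ J, Integrable (F s) μ)
    (hd : ∀ s ∈ J, ∀ x, HasDerivWithinAt (fun r => F r x) (F' s x) J s)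
    (hC : ∀ s ∈ J, ∀ x, |F' s x| ≤ C) :
    HasDerivWithinAt (fun s => ∫ x, F s x ∂μ) (∫ x, F' t x ∂μ) J t := by
  rw [hasDerivWithinAt_iff_tendsto_slope]
  have hev : ∀ᶠ s in 𝓝[J \ {t}] t, s ∈ J ∧ s ≠ t :=
    mem_of_superset self_mem_nhdsWithin fun s hs => ⟨hs.1, hs.2⟩
  have h1 : Tendsto (fun s => ∫ x, slope (fun r => F r x) t s ∂μ) (𝓝[J \ {t}] t)
      (𝓝 (∫ x, F' t x ∂μ)) := by
    refine tendsto_integral_filter_of_dominated_convergence (fun _ => C) ?_ ?_
      (integrable_const C) ?_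
    · filter_upwards [hev] with s hs
      simp only [slope_def_field]
      exact (((hm s hs.1).sub (hm t ht)).div_const _).aestronglyMeasurable
    · filter_upwards [hev] with s hs
      refine Eventually.of_forall fun x => ?_
      have h2 := hJ.norm_image_sub_le_of_norm_hasDerivWithin_le (f := fun r => F r x)
        (f' := fun r => F' r x) (C := C) (fun r hr => hd r hr x) (fun r hr => hC r hr x) ht hs.1
      rw [slope_def_field, norm_div, div_le_iff₀ (norm_pos_iff.2 (sub_ne_zero.2 hs.2))]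
      exact h2
    · exact Eventually.of_forall fun x => hasDerivWithinAt_iff_tendsto_slope.1 (hd t ht x)
  refine h1.congr' ?_
  filter_upwards [hev] with s hs
  simp only [slope_def_field]
  rw [integral_div, integral_sub (hm s hs.1) (hm t ht)]

/-- derivative of `√det` -/
theorem hasDerivWithinAt_sqrt_det {n : ℕ} {A : ℝ → Matrix (Fin n) (Fin n) ℝ}
    {K : Matrix (Fin n) (Fin n) ℝ} {t : ℝ} (hA : (A t).PosDef)
    (hd : ∀ i j, HasDerivAt (fun s => A s i j) (K i j) t) :
    HasDerivAt (fun s => √(A s).det) ((1 / 2) * (∑ i, ∑ j, (A t)⁻¹ i j * K j i) * √(A t).det) t := by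
  have h1 := Bo84.hasFDerivAt_det (A := A) (x := t) (fun i j => (hd i j).hasFDerivAt)
  have h2 := h1.hasDerivAt
  have hp := hA.det_pos
  have h3 : ∀ i j, (A t).adjugate i j = (A t).det * (A t)⁻¹ i j := by
    intro i j
    rw [Matrix.inv_def, Matrix.smul_apply, Ring.inverse_eq_inv', smul_eq_mul, ← mul_assoc,
      mul_inv_cancel₀ hp.ne', one_mul]
  have h4 : HasDerivAt (fun s => (A s).det) ((A t).det * ∑ i, ∑ j, (A t)⁻¹ i j * K j i) t := by
    convert h2 using 1
    simp only [sum_apply, smul_apply,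
      ContinuousLinearMap.toSpanSingleton_apply, smul_eq_mul, one_mul, h3, Finset.mul_sum,
      mul_assoc]
  convert h4.sqrt hp.ne' using 1
  have h5 : √(A t).det ≠ 0 := (Real.sqrt_pos.2 hp).ne'
  have h6 : (A t).det = √(A t).det * √(A t).det := (Real.mul_self_sqrt hp.le).symm
  set r := √(A t).det
  rw [h6]
  field_simp

variable {n : ℕ} {M : Type*} [TopologicalSpace M] [ChartedSpace (En n) M]
  [IsManifold 𝓘(ℝ, En n) ∞ M]

/-! ### space-time smooth functions -/

theorem SmST.cont {u : ℝ → M → ℝ} {J : Set ℝ} (hu : SmST n u J) :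
    ContinuousOn (fun p : ℝ × M => u p.1 p.2) (J ×ˢ univ) := by
  rintro ⟨t, x⟩ ⟨ht, -⟩
  have hx : x ∈ src n x := mem_chart_source (En n) x
  have h1 : ContinuousWithinAt (fun p : ℝ × En n => Bo84.inCh n x (u p.1) p.2) (J ×ˢ tg n x)
      (t, ctr n x) := (hu x).continuousOn _ ⟨ht, ctr_mem x⟩
  have h2 : ContinuousAt (fun p : ℝ × M => (p.1, chartAt (En n) x p.2)) (t, x) :=
    continuousAt_fst.prodMk (((chartAt (En n) x).continuousAt hx).comp_of_eq continuousAt_snd rfl)
  have h3 : ContinuousWithinAt (fun p : ℝ × M => Bo84.inCh n x (u p.1) (chartAt (En n) x p.2))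
      (J ×ˢ src n x) (t, x) := by
    have hm : MapsTo (fun p : ℝ × M => (p.1, chartAt (En n) x p.2)) (J ×ˢ src n x) (J ×ˢ tg n x) :=
      fun p hp => mk_mem_prod hp.1 ((chartAt (En n) x).map_source hp.2)
    have h5 := ContinuousWithinAt.comp (f := fun p : ℝ × M => (p.1, chartAt (En n) x p.2))
      (x := (t, x)) h1 h2.continuousWithinAt hm
    exact h5
  have h4 : ContinuousWithinAt (fun p : ℝ × M => u p.1 p.2) (J ×ˢ src n x) (t, x) := by
    refine h3.congr (fun p hp => ?_) ?_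
    · simp only [Bo84.inCh, (chartAt (En n) x).left_inv hp.2]
    · simp only [Bo84.inCh, (chartAt (En n) x).left_inv hx]
  refine h4.mono_of_mem_nhdsWithin ?_
  refine mem_nhdsWithin.2 ⟨univ ×ˢ src n x, isOpen_univ.prod (chartAt (En n) x).open_source,
    ⟨mem_univ _, hx⟩, fun p hp => ⟨hp.2.1, hp.1.2⟩⟩

theorem SmST.sm {u : ℝ → M → ℝ} {J : Set ℝ} (hu : SmST n u J) {t : ℝ} (ht : t ∈ J) :
    Sm n (u t) := by
  refine sm_of_chart fun x => ?_
  have h1 : ContDiffOn ℝ ∞ (Bo84.inCh n x (u t)) (tg n x) :=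
    (hu x).comp (f := fun y : En n => (t, y)) (contDiffOn_const.prodMk contDiffOn_id)
      fun y hy => ⟨ht, hy⟩
  exact h1.contDiffAt ((chartAt (En n) x).open_target.mem_nhds (ctr_mem x))

theorem SmST.mul {u v : ℝ → M → ℝ} {J : Set ℝ} (hu : SmST n u J) (hv : SmST n v J) :
    SmST n (fun t x => u t x * v t x) J := fun x => (hu x).mul (hv x)

theorem SmST.mono {u : ℝ → M → ℝ} {J J' : Set ℝ} (hu : SmST n u J) (h : J' ⊆ J) :
    SmST n u J' := fun x => (hu x).mono (prod_mono h Subset.rfl)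

theorem SmST.chart_deriv {u : ℝ → M → ℝ} {J : Set ℝ} (hu : SmST n u J) (x : M) {t : ℝ}
    (ht : t ∈ J) {y : En n} (hy : y ∈ tg n x) :
    HasDerivWithinAt (fun s => u s (sy n x y))
      (fderivWithin ℝ (fun p : ℝ × En n => Bo84.inCh n x (u p.1) p.2) (J ×ˢ tg n x) (t, y) (1, 0))
      J t := by
  have h1 := ((hu x).differentiableOn (by simp) (t, y) ⟨ht, hy⟩).hasFDerivWithinAt
  have h2 : HasDerivWithinAt (fun s : ℝ => (s, y)) ((1 : ℝ), (0 : En n)) J t :=
    ((hasDerivAt_id t).prodMk (hasDerivAt_const t y)).hasDerivWithinAt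
  exact h1.comp_hasDerivWithinAt (f := fun s : ℝ => (s, y)) t h2 fun s hs => ⟨hs, hy⟩

theorem SmST.hasDerivWithinAt {u : ℝ → M → ℝ} {J : Set ℝ} (hu : SmST n u J) {t : ℝ}
    (ht : t ∈ J) (x : M) :
    HasDerivWithinAt (fun s => u s x) (derivWithin (fun s => u s x) J t) J t := by
  have h := SmST.chart_deriv hu x ht (ctr_mem x)
  rw [sy_ctr] at h
  exact h.differentiableWithinAt.hasDerivWithinAt

/-- the time derivative of a space-time smooth function is space-time smooth -/
theorem SmST.derivWithin {u : ℝ → M → ℝ} {J : Set ℝ} (hu : SmST n u J) (hJ : UniqueDiffOn ℝ J) :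
    SmST n (fun t x => derivWithin (fun s => u s x) J t) J := by
  intro x
  have hS : UniqueDiffOn ℝ (J ×ˢ tg n x) := hJ.prod (chartAt (En n) x).open_target.uniqueDiffOn
  have h1 : ContDiffOn ℝ ∞ (fun p => fderivWithin ℝ
      (fun p : ℝ × En n => Bo84.inCh n x (u p.1) p.2) (J ×ˢ tg n x) p (1, 0)) (J ×ˢ tg n x) :=
    ((hu x).fderivWithin hS (m := ∞) (by simp)).clm_apply contDiffOn_const
  refine h1.congr fun p hp => ?_
  exact (SmST.chart_deriv hu x hp.1 hp.2).derivWithin (hJ _ hp.1)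

theorem SmST.bdd [CompactSpace M] {u : ℝ → M → ℝ} {J : Set ℝ} (hu : SmST n u J)
    (hJ : IsCompact J) : ∃ C, ∀ t ∈ J, ∀ x, |u t x| ≤ C := by
  obtain ⟨C, hC⟩ := (hJ.prod isCompact_univ).exists_bound_of_continuousOn (SmST.cont hu)
  exact ⟨C, fun t ht x => hC (t, x) ⟨ht, mem_univ x⟩⟩

/-! ### the density along a family -/

theorem SmFam.dens {m : ℝ → Met n M} {J : Set ℝ} (hm : SmFam m J) (x : M) :
    ContDiffOn ℝ ∞ (fun p : ℝ × En n => dens (m p.1) x p.2) (J ×ˢ tg n x) := by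
  have h1 : ContDiffOn ℝ ∞ (fun p : ℝ × En n => ((m p.1).G x p.2).det) (J ×ˢ tg n x) := by
    simp only [Matrix.det_apply]
    refine ContDiffOn.sum fun σ _ => ?_
    refine ContDiffOn.const_smul _ ?_
    exact contDiffOn_prod fun i _ => hm x (σ i) i
  exact h1.sqrt fun p hp => (Bo84.det_pos (riem (m p.1) x) hp.2).ne'

theorem smST_rho {m : ℝ → Met n M} {J : Set ℝ} (hm : SmFam m J) (m₀ : Met n M) :
    SmST n (fun s => rho m₀ (m s)) J := by
  intro x
  have h1 : ContDiffOn ℝ ∞ (fun p : ℝ × En n => dens m₀ x p.2) (J ×ˢ tg n x) :=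
    (contDiffOn_dens m₀ x).comp contDiffOn_snd fun p hp => hp.2
  refine ((SmFam.dens hm x).div h1 fun p hp => (dens_pos m₀ x hp.2).ne').congr fun p hp => ?_
  exact rho_chart m₀ (m p.1) hp.2

/-- `∂ₜ √det g = -R √det g` in coordinates -/
theorem hasDerivAt_sqrt_det_rf {G : ℝ → MetricField n} {t : ℝ} {y : En n} {U : Set (En n)}
    (hG : IsRiemannianOn (G t) U) (hy : y ∈ U)
    (hd : ∀ i j, HasDerivAt (fun s => G s y i j) (-2 * ricci (G t) y i j) t) :
    HasDerivAt (fun s => √(G s y).det) (-scalarCurv (G t) y * √(G t y).det) t := by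
  have h := hasDerivWithinAt_sqrt_det (A := fun s => G s y)
    (K := Matrix.of fun i j => -2 * ricci (G t) y i j) (hG.posDef y hy) hd
  convert h using 2
  rw [scalarCurv, Finset.sum_comm, Finset.mul_sum, ← Finset.sum_neg_distrib]
  refine Finset.sum_congr rfl fun i _ => ?_
  rw [Finset.mul_sum, ← Finset.sum_neg_distrib]
  refine Finset.sum_congr rfl fun j _ => ?_
  have h1 : (G t y)⁻¹ j i = (G t y)⁻¹ i j := Bo84.inv_symm hG hy j i
  rw [h1, Matrix.of_apply]
  ring

theorem hasDerivAt_rho {m : ℝ → Met n M} {J : Set ℝ} (hrf : RFOn m J) {t : ℝ} (ht : t ∈ J)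
    (m₀ : Met n M) (x : M) :
    HasDerivAt (fun s => rho m₀ (m s) x) (-(m t).scal x * rho m₀ (m t) x) t := by
  have h := hasDerivAt_sqrt_det_rf (G := fun s => (m s).G x) (riem (m t) x) (ctr_mem x)
    (hrf x t ht _ (ctr_mem x))
  have h2 := h.div_const (dens m₀ x (ctr n x))
  rw [mul_div_assoc] at h2
  exact h2

theorem rho_le {m : ℝ → Met n M} {J : Set ℝ} (hJ : Convex ℝ J) (hrf : RFOn m J) {K : ℝ}
    (hK : ∀ t ∈ J, ∀ x, |(m t).scal x| ≤ K) {s t : ℝ} (hs : s ∈ J) (ht : t ∈ J) (x : M) :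
    rho (m s) (m t) x ≤ Real.exp (K * |t - s|) := by
  have hd : ∀ r ∈ J, HasDerivWithinAt (fun r => Real.log (rho (m s) (m r) x)) (-(m r).scal x) J r := by
    intro r hr
    have h := (hasDerivAt_rho hrf hr (m s) x).log (rho_pos _ _ x).ne'
    rw [mul_div_cancel_right₀ _ (rho_pos _ _ x).ne'] at h
    exact h.hasDerivWithinAt
  have h2 := hJ.norm_image_sub_le_of_norm_hasDerivWithin_le (C := K) hd
    (fun r hr => by rw [norm_neg]; exact hK r hr x) hs ht
  simp only [rho_self, Real.log_one, sub_zero, Real.norm_eq_abs] at h2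
  rw [← Real.exp_log (rho_pos (m s) (m t) x)]
  exact Real.exp_le_exp.2 ((le_abs_self _).trans h2)

variable [T3Space M] [ConnectedSpace M] [MeasurableSpace M] [BorelSpace M] [CompactSpace M]

/-- the volumes at two times are comparable -/
theorem vol_le {m : ℝ → Met n M} {J : Set ℝ} (hJ : Convex ℝ J) (hrf : RFOn m J) {K : ℝ}
    (hK : ∀ t ∈ J, ∀ x, |(m t).scal x| ≤ K) {s t : ℝ} (hs : s ∈ J) (ht : t ∈ J) :
    (m t).vol ≤ ENNReal.ofReal (Real.exp (K * |t - s|)) • (m s).vol :=
  vol_le_of_rho (rho_le hJ hrf hK hs ht)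

/-- `d/dt ∫ f dvol = ∫ (∂ₜ f - R f) dvol` -/
theorem int_dt {m : ℝ → Met n M} {a b : ℝ} (hab : a < b) (hm : SmFam m (Icc a b)) {t : ℝ}
    (ht : t ∈ Icc a b) (hrf : RFOn m {t}) {f : ℝ → M → ℝ} {f' : M → ℝ} (hf : SmST n f (Icc a b))
    (hf' : ∀ x, HasDerivWithinAt (fun s => f s x) (f' x) (Icc a b) t) :
    HasDerivWithinAt (fun s => ∫ x, f s x ∂(m s).vol)
      (∫ x, (f' x - (m t).scal x * f t x) ∂(m t).vol) (Icc a b) t := by
  haveI := isFinite (m t)
  have hU : UniqueDiffOn ℝ (Icc a b) := uniqueDiffOn_Icc hab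
  have hF : SmST n (fun s x => rho (m t) (m s) x * f s x) (Icc a b) :=
    SmST.mul (smST_rho hm (m t)) hf
  obtain ⟨C, hC⟩ := SmST.bdd (SmST.derivWithin hF hU) isCompact_Icc
  have h := hasDerivWithinAt_integral (μ := (m t).vol) (convex_Icc a b) ht
    (F := fun s x => rho (m t) (m s) x * f s x)
    (fun s hs => integrable_cont (m t) (SmST.sm hF hs).continuous)
    (fun s hs x => SmST.hasDerivWithinAt hF hs x) hC
  have e1 : (fun s => ∫ x, f s x ∂(m s).vol) =
      fun s => ∫ x, rho (m t) (m s) x * f s x ∂(m t).vol := by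
    funext s
    rw [integral_rho (m t) (m s)]
    rfl
  rw [e1]
  convert h using 3 with x
  have h2 := (hasDerivAt_rho hrf (mem_singleton t) (m t) x).hasDerivWithinAt.fun_mul (hf' x)
  rw [h2.derivWithin (hU t ht), rho_self]
  ring

end Crest.Agent.N207.V

end
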