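import Crest.Agent.N207.V.Dt
import Crest.Agent.N207.AI.HcDef

/-!
# Row 207 (helper97): `HC.Intg` for a Ricci flow, local volume bounds of small balls
-/

set_option autoImplicit false
set_option linter.unusedSectionVars false
set_option linter.style.haveILetI false

open scoped ContDiff Manifold Topology ENNReal NNReal
open Set Filter MeasureTheory
open Crest.GeometryTopology.CoordMetric Crest.GeometryTopology.ChartCurvature
  Crest.GeometryTopology.MetricFamily
open Crest.Agent.R247 Crest.Agent.R202.Tens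

noncomputable section

namespace Crest.Agent.N207.V

section Static

variable {n : ℕ} {M : Type*} [TopologicalSpace M] [ChartedSpace (En n) M]
  [IsManifold 𝓘(ℝ, En n) ∞ M] [T3Space M] [ConnectedSpace M]

/-- the preferred chart is bi-Lipschitz near every point of its target -/
theorem exists_bilip (m : Met n M) (x : M) {a : En n} (ha : a ∈ tg n x) :
    ∃ r L : ℝ, 0 < r ∧ 0 < L ∧ Metric.ball a r ⊆ tg n x ∧
      ∀ y ∈ Metric.ball a r, ∀ z ∈ Metric.ball a r,
        m.d (sy n x y) (sy n x z) ≤ L * dist y z ∧ dist y z ≤ L * m.d (sy n x y) (sy n x z) := by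
  have h1 := @Ms322.exists_isometry n (Sl m) _ _ _ _ _ x a
  obtain ⟨A, hA, -⟩ := h1 ha
  have h2 := @Ms322.exists_bilip n (Sl m) _ _ _ _ _ _ x a
  obtain ⟨r, hr, hrt, hL1, hL2⟩ := h2 ha hA (η := 1) one_pos
  set L : ℝ := 2 * (‖(A : En n →L[ℝ] En n)‖ + ‖(A.symm : En n →L[ℝ] En n)‖) + 1 with hL
  have n1 := norm_nonneg (A : En n →L[ℝ] En n)
  have n2 := norm_nonneg (A.symm : En n →L[ℝ] En n)
  refine ⟨r, L, hr, by positivity, hrt, fun y hy z hz => ⟨?_, ?_⟩⟩
  · have h3 := hL1.dist_le_mul (A y) (mem_image_of_mem _ hy) (A z) (mem_image_of_mem _ hz)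
    simp only [ContinuousLinearEquiv.symm_apply_apply] at h3
    have h4 : dist (A y) (A z) ≤ ‖(A : En n →L[ℝ] En n)‖ * dist y z :=
      (A : En n →L[ℝ] En n).dist_le_opNorm y z
    have h5 : m.d (sy n x y) (sy n x z) ≤ 2 * dist (A y) (A z) := by
      have : ((1 + 1 : ℝ≥0) : ℝ) = 2 := by norm_num
      rw [this] at h3
      exact h3
    have h6 := dist_nonneg (x := y) (y := z)
    nlinarith
  · have h3 := hL2.dist_le_mul (sy n x y) (mem_image_of_mem _ hy) (sy n x z)
      (mem_image_of_mem _ hz)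
    have e1 : chartAt (En n) x (sy n x y) = y := (chartAt (En n) x).right_inv (hrt hy)
    have e2 : chartAt (En n) x (sy n x z) = z := (chartAt (En n) x).right_inv (hrt hz)
    have h5 : dist (A y) (A z) ≤ 2 * m.d (sy n x y) (sy n x z) := by
      have : ((1 + 1 : ℝ≥0) : ℝ) = 2 := by norm_num
      rw [this] at h3
      have h7 : dist (A (chartAt (En n) x (sy n x y))) (A (chartAt (En n) x (sy n x z))) ≤
        2 * m.d (sy n x y) (sy n x z) := h3
      rwa [e1, e2] at h7
    have h4 : dist y z ≤ ‖(A.symm : En n →L[ℝ] En n)‖ * dist (A y) (A z) := by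
      have := (A.symm : En n →L[ℝ] En n).dist_le_opNorm (A y) (A z)
      simpa using this
    have h6 : 0 ≤ m.d (sy n x y) (sy n x z) := dist_nonneg (α := Sl m)
    nlinarith [mul_le_mul_of_nonneg_left h5 n2]

variable [MeasurableSpace M] [BorelSpace M] [CompactSpace M]

/-- lower bound for the volume of small balls at a fixed point -/
theorem volLoc (m : Met n M) (x : M) : ∃ c s0 : ℝ, 0 < c ∧ 0 < s0 ∧ ∀ s, 0 < s → s ≤ s0 →
    c * s ^ n ≤ m.vol.real {y | m.d x y < s} := by
  haveI := isFinite m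
  obtain ⟨r, L, hr, hL, hrt, hd⟩ := exists_bilip m x (ctr_mem x)
  have hc : ContinuousAt (dens m x) (ctr n x) :=
    (contDiffOn_dens m x).continuousOn.continuousAt
      ((chartAt (En n) x).open_target.mem_nhds (ctr_mem x))
  set c0 := dens m x (ctr n x) / 2 with hc0
  have hp := dens_pos m x (ctr_mem x)
  have hc0p : 0 < c0 := by positivity
  obtain ⟨δ, hδ, hδ'⟩ := Metric.eventually_nhds_iff.1
    (hc.eventually (lt_mem_nhds (show c0 < dens m x (ctr n x) by linarith)))
  set w := (volume : Measure (En n)).real (Metric.ball 0 1) with hw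
  have hwp : 0 < w := ENNReal.toReal_pos (Metric.measure_ball_pos _ _ one_pos).ne'
    measure_ball_lt_top.ne
  refine ⟨c0 * w / L ^ n, L * min r δ, by positivity, by positivity, fun s hs hs0 => ?_⟩
  have hρ : 0 < s / L := by positivity
  have hρ1 : s / L ≤ min r δ := by rw [div_le_iff₀ hL]; linarith
  have hsub : Metric.ball (ctr n x) (s / L) ⊆ Metric.ball (ctr n x) r :=
    Metric.ball_subset_ball (hρ1.trans (min_le_left _ _))
  have h1 : sy n x '' Metric.ball (ctr n x) (s / L) ⊆ {y | m.d x y < s} := by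
    rintro _ ⟨y, hy, rfl⟩
    have h2 := (hd _ (Metric.mem_ball_self hr) y (hsub hy)).1
    rw [sy_ctr] at h2
    have h3 : dist (ctr n x) y < s / L := by rw [dist_comm]; exact hy
    rw [lt_div_iff₀ hL] at h3
    show m.d x (sy n x y) < s
    linarith
  have h2 := lintegral_symm_image m x (hsub.trans hrt) measurableSet_ball (fun _ => 1)
  simp only [lintegral_const, one_mul, mul_one, MeasurableSet.univ, Measure.restrict_apply,
    univ_inter] at h2
  have h3 : ENNReal.ofReal c0 * volume (Metric.ball (ctr n x) (s / L)) ≤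
      ∫⁻ a in Metric.ball (ctr n x) (s / L), ENNReal.ofReal (dens m x a) := by
    rw [← setLIntegral_const]
    refine setLIntegral_mono' measurableSet_ball fun a ha => ENNReal.ofReal_le_ofReal ?_
    exact (hδ' (lt_of_lt_of_le ha (hρ1.trans (min_le_right _ _)))).le
  have h4 : volume (Metric.ball (ctr n x) (s / L)) =
      ENNReal.ofReal ((s / L) ^ n) * volume (Metric.ball (0 : En n) 1) := by
    have := Measure.addHaar_ball_mul_of_pos (volume : Measure (En n)) (ctr n x) hρ 1
    rwa [mul_one, finrank_euclideanSpace, Fintype.card_fin] at this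
  have h5 : ENNReal.ofReal c0 * volume (Metric.ball (ctr n x) (s / L)) ≤ m.vol {y | m.d x y < s} :=
    h3.trans (h2 ▸ measure_mono h1)
  have h6 := ENNReal.toReal_mono (measure_ne_top _ _) h5
  rw [h4, ENNReal.toReal_mul, ENNReal.toReal_mul, ENNReal.toReal_ofReal hc0p.le,
    ENNReal.toReal_ofReal (by positivity)] at h6
  calc c0 * w / L ^ n * s ^ n = c0 * ((s / L) ^ n * w) := by rw [div_pow]; ring
    _ ≤ _ := h6

end Static

variable {M : Type*} [TopologicalSpace M] [ChartedSpace E4 M] [IsManifold 𝓘(ℝ, E4) ∞ M]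
  [T3Space M] [ConnectedSpace M] [MeasurableSpace M] [BorelSpace M] [CompactSpace M]
  [SecondCountableTopology M]

/-- `HC.Intg` for a Ricci flow -/
theorem intg (F : Flow M) : F.hc.Intg where
  fin t _ := isFinite (F.m t)
  pos t _ := isOpenPos (F.m t)
  int_lap t _ _ hu := int_lap (F.m t) hu
  ibp t _ _ _ hu hv := ibp (F.m t) hu hv
  int_dt {a b f f'} h hf hf' t ht := by
    have hsub : Icc a b ⊆ Ico 0 F.T := fun s hs => ⟨h.1.le.trans hs.1, hs.2.trans_lt h.2.2⟩
    have hm : SmFam F.m (Icc a b) := fun x i j => (F.sm x i j).mono (prod_mono hsub Subset.rfl)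
    have hrf : RFOn F.m {t} := fun x s hs => by
      obtain rfl : s = t := hs
      exact F.rf x s ⟨h.1.trans_le ht.1, ht.2.trans_lt h.2.2⟩
    exact int_dt h.2.1 hm ht hrf hf (hf' t ht)
  vol_le hK s hs t ht := vol_le (convex_Ioo 0 F.T) F.rf hK hs ht

/-- lower volume bound for small balls, at each time and point -/
theorem volLoc_flow (F : Flow M) : ∀ t ∈ Ioo 0 F.hc.T, ∀ x, ∃ c s0 : ℝ, 0 < c ∧ 0 < s0 ∧
    ∀ s, 0 < s → s ≤ s0 → c * s ^ 4 ≤ (F.hc.vol t).real {y | F.hc.d t x y < s} :=
  fun t _ x => volLoc (F.m t) x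

end Crest.Agent.N207.V

end
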