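import Crest.Agent.N207.A.Tf5
import Crest.Agent.N207.A.Gb1

/-!
# Row 207 (helper97): the variation of the Gauss-Bonnet integrand over a differential ring
-/

set_option autoImplicit false
set_option linter.unusedSectionVars false

namespace Crest.Agent.N207.A

open Finset Function

variable {n p : ℕ} {S : Type*} [CommRing S] [Algebra ℝ S]

lemma gv_ip_sw (H : Matrix (Fin n) (Fin n) S) (A B : Ten n S (p + 2)) :
    ip H (sw A) B = ip H A (sw B) := by
  have e1 : ∀ a b, sl (sl (sw A) a) b = sl (sl A b) a := fun _ _ => rfl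
  have e2 : ∀ a b, sl (sl (sw B) a) b = sl (sl B b) a := fun _ _ => rfl
  simp only [ip_cons H (p := p + 1), ip_cons H (p := p), e1, e2, mul_sum]
  rw [sum4_comm]
  exact sum_congr rfl fun _ _ => sum_congr rfl fun _ _ => sum_congr rfl fun _ _ =>
    sum_congr rfl fun _ _ => by ring

lemma gv_ip_negL (H : Matrix (Fin n) (Fin n) S) (A B : Ten n S p) : ip H (-A) B = -ip H A B := by
  rw [← zero_sub, ip_subL, ip_zeroL, zero_sub]

lemma gv_ip_negR (H : Matrix (Fin n) (Fin n) S) (A B : Ten n S p) : ip H A (-B) = -ip H A B := by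
  rw [← zero_sub, ip_subR, ip_zeroR, zero_sub]

lemma gv_D_two (δ : Derivation ℝ S S) : δ (2 : S) = 0 := by
  rw [← one_add_one_eq_two, map_add, Derivation.map_one_eq_zero, add_zero]

namespace Co

variable (C : Co n S)

/-- `|Rm|² - 4 |Ric|² + R²` -/
noncomputable def pf : S := C.nsq C.rmT - 4 * C.nsq C.ricT + C.scal ^ 2

/-- a quarter of the boundary term in the variation of `pf` -/
noncomputable def wq : Ten n S 1 :=
  con C.gi C.Om C.rmT - (2 : S) • con C.gi C.ricT (sw (p := 1) C.Om)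
    + (2 : S) • con C.gi (tr (p := 1) C.gi C.Om) C.ricT - C.scal • tr (p := 1) C.gi C.Om

lemma gv_div_smul (f : S) (T : Ten n S 1) :
    C.divT (f • T) Fin.elim0 = ip C.gi (C.dT f) T + f * C.divT T Fin.elim0 := by
  simp only [divT, tr, cov_cons, cd_smul, Pi.add_apply, Pi.smul_apply, smul_eq_mul, ip_v1, dT_v1,
    mul_add, sum_add_distrib, mul_sum]
  congr 1
  exact sum_congr rfl fun _ _ => sum_congr rfl fun _ _ => by ring

lemma gv_div_two (T : Ten n S 1) :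
    C.divT ((2 : S) • T) Fin.elim0 = 2 * C.divT T Fin.elim0 := by
  rw [gv_div_smul]
  simp only [ip_v1, dT_v1, gv_D_two, zero_mul, mul_zero, sum_const_zero, zero_add]

lemma gv_div_add (T U : Ten n S (p + 1)) : C.divT (T + U) = C.divT T + C.divT U := by
  rw [divT, cov_add]; exact (isLin_tr C.gi).map_add _ _

lemma gv_div_sub (T U : Ten n S (p + 1)) : C.divT (T - U) = C.divT T - C.divT U := by
  rw [divT, cov_sub]; exact (isLin_tr C.gi).map_sub _ _

lemma gv_Om_anti (k l m : Fin n) : C.Om (v3 k l m) = -C.Om (v3 k m l) := by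
  rw [Om_eq, Om_eq]; ring

lemma gv_nsq_Om : ip C.gi C.Om C.Om = 2 * ip C.gi (C.cov C.ricT) (sw (p := 1) C.Om) := by
  set A : Ten n S 3 := sw (p := 1) (C.cov C.ricT) with hA
  set B : Ten n S 3 := fun I => A (v3 (I 0) (I 2) (I 1)) with hB
  have h1 : C.Om = A - B := ext3 fun k l m => by
    rw [Om_eq, C.cov_ric_symm l m k, C.cov_ric_symm m l k]; rfl
  have h2 : ip C.gi C.Om B = -ip C.gi C.Om A := by
    rw [ip_cons, ip_cons, ← sum_neg_distrib]
    refine sum_congr rfl fun a _ => ?_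
    rw [← sum_neg_distrib]
    refine sum_congr rfl fun b _ => ?_
    have e1 : sl B b = sw (p := 0) (sl A b) := ext2 fun _ _ => rfl
    have e2 : sw (p := 0) (sl C.Om a) = -sl C.Om a := ext2 fun l m => C.gv_Om_anti a m l
    rw [e1, ← gv_ip_sw, e2, gv_ip_negL, mul_neg]
  have h3 : ip C.gi C.Om A = ip C.gi (C.cov C.ricT) (sw (p := 1) C.Om) := by
    rw [ip_comm _ _ C.gi_symm, hA, gv_ip_sw]
  calc ip C.gi C.Om C.Om = ip C.gi C.Om (A - B) := by rw [← h1]
    _ = _ := by rw [ip_subR, h2, h3]; ring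

lemma gv_div_ric : C.divT C.ricT = -tr (p := 1) C.gi C.Om := ext1 fun m => by
  rw [Pi.neg_apply, tr_Om, neg_neg]

lemma gv_dT_scal : C.dT C.scal = -((2 : S) • tr (p := 1) C.gi C.Om) := ext1 fun m => by
  rw [dT_v1, ← two_div_ric, gv_div_ric]
  simp only [Pi.neg_apply, Pi.smul_apply, smul_eq_mul, mul_neg]

lemma div_wq : C.divT C.wq Fin.elim0 = ip C.gi (C.cov C.Om) C.rmT
    - 2 * ip C.gi C.ricT (C.divT (sw (p := 1) C.Om))
    + 2 * ip C.gi (C.cov (tr (p := 1) C.gi C.Om)) C.ricT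
    - C.scal * C.divT (tr (p := 1) C.gi C.Om) Fin.elim0 := by
  have h := C.gv_nsq_Om
  have e : C.divT C.rmT = C.Om := rfl
  simp only [wq, gv_div_sub, gv_div_add, Pi.sub_apply, Pi.add_apply, gv_div_two, div_con]
  rw [gv_div_smul, e, gv_div_ric, gv_dT_scal, gv_ip_negR, gv_ip_negL, ip_smulL]
  linear_combination h

/-- the quadratic part of `∂ₜ Rm` -/
noncomputable def gvQ4 : Ten n S 4 := rho C.gi C.ricT C.rmT - sw (p := 2) (rho C.gi C.ricT C.rmT)

/-- the quadratic part of `∂ₜ Ric` -/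
noncomputable def gvQ2 : Ten n S 2 := tr (p := 2) C.gi (prm e12 C.gvQ4)

/-- the cubic part of `∂ₜ pf` -/
noncomputable def cub : S := 2 * ip C.gi C.gvQ4 C.rmT - 8 * ip C.gi C.gvQ2 C.ricT
  + 2 * C.scal * tr (p := 0) C.gi C.gvQ2 Fin.elim0

lemma gv_div_sw (j c : Fin n) : C.divT (sw (p := 1) C.Om) (v2 j c)
    = ∑ a, ∑ b, C.gi a b * C.cov C.Om (v4 a j b c) := by
  simp only [divT, tr, cov_cons, cd_sw, sw_cons]

lemma gv_tr_div_sw : tr (p := 0) C.gi (C.divT (sw (p := 1) C.Om)) Fin.elim0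
    = -C.divT (tr (p := 1) C.gi C.Om) Fin.elim0 := by
  have e : ∀ a j b c, C.cov C.Om (v4 a j b c) = -C.cov C.Om (v4 a j c b) := fun a j b c => by
    rw [cov_Om, cov_Om]; ring
  have h1 : tr (p := 0) C.gi (C.divT (sw (p := 1) C.Om)) Fin.elim0
      = ∑ j, ∑ c, C.gi j c * ∑ a, ∑ b, C.gi a b * C.cov C.Om (v4 a j b c) := by
    simp only [tr, gv_div_sw]
  have h2 : C.divT (tr (p := 1) C.gi C.Om) Fin.elim0
      = ∑ a, ∑ b, C.gi a b * ∑ j, ∑ c, C.gi j c * C.cov C.Om (v4 a j c b) := by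
    simp only [divT]
    rw [tr]
    exact sum_congr rfl fun a _ => sum_congr rfl fun b _ => by rw [cov_tr]
  rw [h1, h2]
  simp only [mul_sum, ← sum_neg_distrib]
  rw [sum4_comm]
  exact sum_congr rfl fun _ _ => sum_congr rfl fun _ _ => sum_congr rfl fun _ _ =>
    sum_congr rfl fun _ _ => by rw [e]; ring

end Co

namespace Rf

variable (F : Rf n S)

lemma gv_Dt_ric : F.DtT F.ricT
    = F.divT (sw (p := 1) F.Om) - F.cov (tr (p := 1) F.gi F.Om) + F.gvQ2 := ext2 fun j c => by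
  have h := F.cd_ric F.compat_t j c
  have h2 : cd F.dt F.wt F.rmT = F.Zr := F.Dt_rm
  rw [DtT, h, h2, Pi.add_apply, Pi.sub_apply, Co.gv_div_sw, Co.cov_tr]
  simp only [Co.gvQ2, Co.gvQ4, tr, prm_e12, Co.Zr, Pi.add_apply, Pi.sub_apply, sw_cons, mul_add,
    mul_sub, sum_add_distrib, sum_sub_distrib]

lemma gv_dt_scal : F.dt F.scal = -(2 * F.divT (tr (p := 1) F.gi F.Om) Fin.elim0)
    + tr (p := 0) F.gi F.gvQ2 Fin.elim0 := by
  have h1 : F.dt F.scal = F.DtT (fnT F.scal) Fin.elim0 := by rw [DtT_fnT]; rfl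
  have h2 : F.DtT (tr (p := 0) F.gi F.ricT) = tr (p := 0) F.gi (F.DtT F.ricT) :=
    cd_tr F.compat_t _
  rw [h1, Co.fnT_scal, h2, gv_Dt_ric, (isLin_tr F.gi).map_add, (isLin_tr F.gi).map_sub,
    Pi.add_apply, Pi.sub_apply, Co.gv_tr_div_sw]
  simp only [Co.divT]; ring

/-- `∂ₜ pf = 4 div w + cubic terms` -/
theorem dt_pf : F.dt F.pf = 4 * F.divT F.wq Fin.elim0 + F.cub := by
  have h4 : F.dt (4 : S) = 0 := by
    rw [show (4 : S) = 2 * 2 by norm_num, D_mul, gv_D_two]; ring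
  have e1 : sw (p := 2) F.rmT = -F.rmT := ext4 fun a b c d => F.rl_anti12 b a c d
  have h1 : F.dt (F.nsq F.rmT) = 4 * ip F.gi (F.cov F.Om) F.rmT + 2 * ip F.gi F.gvQ4 F.rmT := by
    rw [Co.nsq, dt_ip, ip_comm F.rmT _ F.gi_symm, Dt_rm, Co.Zr, ip_addL, ip_subL, gv_ip_sw, e1,
      gv_ip_negR, Co.gvQ4]
    ring
  have h2 : F.dt (F.nsq F.ricT) = 2 * ip F.gi F.ricT (F.divT (sw (p := 1) F.Om))
      - 2 * ip F.gi (F.cov (tr (p := 1) F.gi F.Om)) F.ricT + 2 * ip F.gi F.gvQ2 F.ricT := by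
    rw [Co.nsq, dt_ip, ip_comm F.ricT (F.DtT _) F.gi_symm, gv_Dt_ric, ip_addL, ip_subL,
      ip_comm F.ricT _ F.gi_symm]
    ring
  rw [Co.pf, map_add, map_sub, D_mul, h4, h1, h2, sq, D_mul, gv_dt_scal, Co.div_wq, Co.cub]
  ring

end Rf

section Ev

variable (ev : S →+* ℝ) {H : Matrix (Fin n) (Fin n) S}
  (h : ∀ a b, ev (H a b) = if a = b then 1 else 0)
include h

lemma gv_ev2 (X : Fin n → Fin n → S) :
    ev (∑ a, ∑ b, H a b * X a b) = ∑ a, ev (X a a) := by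
  simp only [map_sum, map_mul, h, ite_mul, one_mul, zero_mul, sum_ite_eq, mem_univ, if_true]

lemma gv_ev_ip2 (A B : Ten n S 2) :
    ev (ip H A B) = ∑ a, ∑ b, ev (A (v2 a b)) * ev (B (v2 a b)) := by
  simp only [ip_v2, gv_ev2 ev h, map_mul]

lemma gv_ev_ip4 (A B : Ten n S 4) : ev (ip H A B)
    = ∑ a, ∑ b, ∑ c, ∑ d, ev (A (v4 a b c d)) * ev (B (v4 a b c d)) := by
  simp only [ip_cons H (p := 3), ip_cons H (p := 2), gv_ev2 ev h, gv_ev_ip2 ev h, sl_apply]

lemma gv_ev_rho (M : Ten n S 2) (T : Ten n S (p + 1)) (k : Fin n) (x : Fin p → Fin n) :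
    ev (rho H M T (Fin.cons k x)) = ∑ m, ev (M (v2 k m)) * ev (T (Fin.cons m x)) := by
  simp only [rho_cons, Matrix.mul_apply, map_sum, map_mul, h, mul_ite, mul_one, mul_zero,
    sum_ite_eq', mem_univ, if_true, mat]

end Ev

/-- the cubic terms in dimension four -/
theorem Co.ev_cub (C : Co 4 S) (ev : S →+* ℝ)
    (h : ∀ a b, ev (C.gi a b) = if a = b then 1 else 0) : ev C.cub = ev C.scal * ev C.pf := by
  have key := Gb.cubic (fun a b c d => ev (C.rl a b c d))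
    (fun a b c d => by rw [C.rl_anti12 b a c d, map_neg])
    (fun a b c d => by rw [C.rl_anti34 a b d c, map_neg])
    (fun a b c d => by rw [C.rl_pair c d a b])
    (fun a b c d => by rw [← map_add, ← map_add, C.rl_bianchi, map_zero])
    (fun k j => ev (C.ricc k j)) (fun k j => by rw [C.ricc_eq, gv_ev2 ev h])
    (ev C.scal) (by rw [Co.scal, gv_ev2 ev h])
    (fun a b c d => ev (rho C.gi C.ricT C.rmT (v4 a b c d)))
    (fun a b c d => by rw [gv_ev_rho ev h]; rfl)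
  have e4 : ∀ a b c d, ev (C.gvQ4 (v4 a b c d)) = ev (rho C.gi C.ricT C.rmT (v4 a b c d))
      - ev (rho C.gi C.ricT C.rmT (v4 b a c d)) := fun a b c d => by
    rw [Co.gvQ4, Pi.sub_apply, map_sub, sw_cons]
  have e2 : ∀ k j, ev (C.gvQ2 (v2 k j)) = ∑ l, (ev (rho C.gi C.ricT C.rmT (v4 l k l j))
      - ev (rho C.gi C.ricT C.rmT (v4 k l l j))) := fun k j => by
    rw [Co.gvQ2, tr, gv_ev2 ev h]
    exact sum_congr rfl fun l _ => by rw [prm_e12, e4]
  have e0 : ev (tr (p := 0) C.gi C.gvQ2 Fin.elim0) = ∑ k, ev (C.gvQ2 (v2 k k)) := by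
    rw [tr, gv_ev2 ev h]
  simp only [Co.cub, Co.pf, Co.nsq, map_add, map_sub, map_mul, map_pow, map_ofNat, gv_ev_ip4 ev h,
    gv_ev_ip2 ev h, e0, e2, e4, Co.rmT_v4, Co.ricT_v2, ← sq]
  exact key

theorem Rf.ev_dt_pf (F : Rf 4 S) (ev : S →+* ℝ)
    (h : ∀ a b, ev (F.gi a b) = if a = b then 1 else 0) :
    ev (F.dt F.pf) = ev F.scal * ev F.pf + 4 * ev (F.divT F.wq Fin.elim0) := by
  rw [F.dt_pf, map_add, map_mul, map_ofNat, F.toCo.ev_cub ev h]
  ring

end Crest.Agent.N207.A
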