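import Crest.Agent.N207.V.Gv1

/-!
# Row 207 (helper97): Hessian estimates, real algebra
-/

set_option autoImplicit false
set_option linter.unusedSectionVars false

namespace Crest.Agent.N207.Hs

open Finset

variable {n : ℕ}

lemma cs0 {ι : Type*} [Fintype ι] (f g : ι → ℝ) :
    |∑ i, f i * g i| ≤ √(∑ i, f i ^ 2) * √(∑ i, g i ^ 2) := by
  rw [← Real.sqrt_mul (sum_nonneg fun _ _ => sq_nonneg _)]
  exact Real.abs_le_sqrt (sum_mul_sq_le_sq_mul_sq _ _ _)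

lemma cs2 (f g : Fin n → Fin n → ℝ) : |∑ a, ∑ b, f a b * g a b| ≤
    √(∑ a, ∑ b, f a b ^ 2) * √(∑ a, ∑ b, g a b ^ 2) := by
  have := cs0 (fun p : Fin n × Fin n => f p.1 p.2) fun p => g p.1 p.2
  simpa only [Fintype.sum_prod_type] using this

lemma cs3 (f g : Fin n → Fin n → Fin n → ℝ) : |∑ a, ∑ b, ∑ c, f a b c * g a b c| ≤
    √(∑ a, ∑ b, ∑ c, f a b c ^ 2) * √(∑ a, ∑ b, ∑ c, g a b c ^ 2) := by
  have := cs0 (fun p : Fin n × Fin n × Fin n => f p.1 p.2.1 p.2.2) fun p => g p.1 p.2.1 p.2.2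
  simpa only [Fintype.sum_prod_type] using this

lemma cs4 (f g : Fin n → Fin n → Fin n → Fin n → ℝ) :
    |∑ a, ∑ b, ∑ c, ∑ d, f a b c d * g a b c d| ≤
    √(∑ a, ∑ b, ∑ c, ∑ d, f a b c d ^ 2) * √(∑ a, ∑ b, ∑ c, ∑ d, g a b c d ^ 2) := by
  have := cs0 (fun p : Fin n × Fin n × Fin n × Fin n => f p.1 p.2.1 p.2.2.1 p.2.2.2)
    fun p => g p.1 p.2.1 p.2.2.1 p.2.2.2
  simpa only [Fintype.sum_prod_type] using this

lemma nn2 (f : Fin n → Fin n → ℝ) : 0 ≤ ∑ a, ∑ b, f a b ^ 2 :=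
  sum_nonneg fun _ _ => sum_nonneg fun _ _ => sq_nonneg _

lemma nn1 (f : Fin n → ℝ) : 0 ≤ ∑ a, f a ^ 2 := sum_nonneg fun _ _ => sq_nonneg _

/-- `|Rm(T, T)| ≤ |Rm| |T|²` -/
lemma rm_TT (r : Fin n → Fin n → Fin n → Fin n → ℝ) (T : Fin n → Fin n → ℝ) :
    |∑ j, ∑ k, (∑ b, ∑ e, T b e * r b j k e) * T j k| ≤
      √(∑ a, ∑ b, ∑ c, ∑ d, r a b c d ^ 2) * ∑ a, ∑ b, T a b ^ 2 := by
  have h := cs4 r fun b j k e => T b e * T j k
  have e1 : ∑ b, ∑ j, ∑ k, ∑ e, (T b e * T j k) ^ 2 = (∑ a, ∑ b, T a b ^ 2) ^ 2 := by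
    rw [sq (∑ a, ∑ b, T a b ^ 2), sum_mul]
    refine sum_congr rfl fun b _ => ?_
    simp only [mul_sum, sum_mul, mul_pow]
  have e2 : ∑ j, ∑ k, (∑ b, ∑ e, T b e * r b j k e) * T j k
      = ∑ b, ∑ j, ∑ k, ∑ e, r b j k e * (T b e * T j k) := by
    simp only [sum_mul]
    rw [sum_congr rfl fun j _ => sum_comm, sum_comm]
    exact sum_congr rfl fun _ _ => sum_congr rfl fun _ _ => sum_congr rfl fun _ _ =>
      sum_congr rfl fun _ _ => by ring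
  rwa [e1, Real.sqrt_sq (nn2 T), ← e2] at h

lemma mm_le (A B : Fin n → Fin n → ℝ) :
    √(∑ k, ∑ l, (∑ m, A k m * B l m) ^ 2) ≤
      √(∑ a, ∑ b, A a b ^ 2) * √(∑ a, ∑ b, B a b ^ 2) := by
  rw [← Real.sqrt_mul (nn2 A), sum_mul_sum]
  exact Real.sqrt_le_sqrt (sum_le_sum fun k _ => sum_le_sum fun l _ =>
    sum_mul_sq_le_sq_mul_sq _ _ _)

lemma mm_T (A B T : Fin n → Fin n → ℝ) :
    |∑ k, ∑ l, (∑ m, A k m * B l m) * T k l| ≤
      √(∑ a, ∑ b, A a b ^ 2) * √(∑ a, ∑ b, B a b ^ 2) * √(∑ a, ∑ b, T a b ^ 2) :=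
  (cs2 _ T).trans (mul_le_mul_of_nonneg_right (mm_le A B) (Real.sqrt_nonneg _))

lemma d3_T (D : Fin n → Fin n → Fin n → ℝ) (X : Fin n → ℝ) (T : Fin n → Fin n → ℝ) :
    |∑ k, ∑ l, (∑ m, D k l m * X m) * T k l| ≤
      √(∑ a, ∑ b, ∑ c, D a b c ^ 2) * √(∑ a, X a ^ 2) * √(∑ a, ∑ b, T a b ^ 2) := by
  have h := cs3 D fun k l m => X m * T k l
  have e1 : ∑ k, ∑ l, ∑ m, (X m * T k l) ^ 2 = (∑ a, X a ^ 2) * ∑ a, ∑ b, T a b ^ 2 := by
    simp only [mul_sum, sum_mul, mul_pow]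
  have e2 : ∑ k, ∑ l, (∑ m, D k l m * X m) * T k l = ∑ k, ∑ l, ∑ m, D k l m * (X m * T k l) := by
    simp only [sum_mul, mul_assoc]
  rwa [e1, Real.sqrt_mul (nn1 X), ← mul_assoc, ← e2] at h

/-- in dimension four, `|Rm|² |X|² ≤ 8 |Rm(X, ·, ·, ·)|² + 88 |Ric|² |X|²` -/
theorem lanczos_le (R : Fin 4 → Fin 4 → Fin 4 → Fin 4 → ℝ)
    (h1 : ∀ a b c d, R b a c d = -R a b c d) (h2 : ∀ a b c d, R a b d c = -R a b c d)
    (h3 : ∀ a b c d, R c d a b = R a b c d)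
    (h4 : ∀ a b c d, R a b c d + R a c d b + R a d b c = 0)
    (rc : Fin 4 → Fin 4 → ℝ) (hrc : ∀ k j, rc k j = ∑ a, R a k a j) (X : Fin 4 → ℝ) :
    (∑ a, ∑ b, ∑ c, ∑ d, R a b c d ^ 2) * ∑ a, X a ^ 2 ≤
      8 * (∑ k, ∑ i, ∑ j, (∑ l, R l k i j * X l) ^ 2)
        + 88 * ((∑ a, ∑ b, rc a b ^ 2) * ∑ a, X a ^ 2) := by
  have L := Gb.lanczos R h1 h2 h3 h4
  simp only [← hrc] at L
  set N := ∑ a, ∑ b, ∑ c, ∑ d, R a b c d ^ 2 with hN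
  set Q := ∑ a, ∑ b, rc a b ^ 2 with hQ
  set s := ∑ a, rc a a with hs
  set Y := ∑ a, X a ^ 2 with hY
  have e0 : ∑ l, ∑ m, X l * X m * ((if l = m then 1 else 0) * (N - 4 * Q + s ^ 2))
      = Y * (N - 4 * Q + s ^ 2) := by
    simp only [ite_mul, one_mul, zero_mul, mul_ite, mul_zero, sum_ite_eq, mem_univ, if_true, hY,
      sum_mul, sq]
  have eA : ∑ l, ∑ m, X l * X m * ∑ k, ∑ i, ∑ j, R l k i j * R m k i j
      = ∑ k, ∑ i, ∑ j, (∑ l, R l k i j * X l) ^ 2 := by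
    have e : ∀ k i j, (∑ l, R l k i j * X l) ^ 2
        = ∑ l, ∑ m, X l * X m * (R l k i j * R m k i j) := fun k i j => by
      simp only [Fin.sum_univ_four]; ring
    simp only [e, mul_sum]
    rw [sum_congr rfl fun l _ => (Gb.s4_out _).symm, ← Gb.s4_out]
  have eE : 0 ≤ ∑ l, ∑ m, X l * X m * ∑ k, rc l k * rc m k := by
    have : ∑ l, ∑ m, X l * X m * ∑ k, rc l k * rc m k = ∑ k, (∑ l, rc l k * X l) ^ 2 := by
      simp only [Fin.sum_univ_four]; ring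
    rw [this]; exact nn1 _
  have hY0 : 0 ≤ Y := nn1 X
  have hQ0 : 0 ≤ Q := nn2 rc
  have hN0 : 0 ≤ N := sum_nonneg fun _ _ => sum_nonneg fun _ _ => nn2 _
  have eB : |∑ l, ∑ m, X l * X m * ∑ k, ∑ j, R l k m j * rc k j| ≤ √N * (√Q * Y) := by
    have h := cs4 R fun l k m j => X l * X m * rc k j
    have e1 : ∑ l, ∑ k, ∑ m, ∑ j, (X l * X m * rc k j) ^ 2 = Q * Y ^ 2 := by
      simp only [hQ, hY, Fin.sum_univ_four]; ring
    have e2 : ∑ l, ∑ m, X l * X m * ∑ k, ∑ j, R l k m j * rc k j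
        = ∑ l, ∑ k, ∑ m, ∑ j, R l k m j * (X l * X m * rc k j) := by
      refine sum_congr rfl fun l _ => ?_
      simp only [mul_sum]
      rw [sum_comm]
      exact sum_congr rfl fun _ _ => sum_congr rfl fun _ _ => sum_congr rfl fun _ _ => by ring
    rwa [e1, Real.sqrt_mul hQ0, Real.sqrt_sq hY0, ← e2] at h
  have eF : |∑ l, ∑ m, X l * X m * rc l m| ≤ Y * √Q := by
    have h := cs2 (fun l m => X l * X m) rc
    have e1 : ∑ l, ∑ m, (X l * X m) ^ 2 = Y ^ 2 := by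
      simp only [hY, Fin.sum_univ_four]; ring
    rwa [e1, Real.sqrt_sq hY0] at h
  have es : |s| ≤ 2 * √Q := by
    have h := cs2 (fun l m : Fin 4 => if l = m then (1 : ℝ) else 0) rc
    have e1 : √(∑ l : Fin 4, ∑ m : Fin 4, (if l = m then (1 : ℝ) else 0) ^ 2) = 2 := by
      rw [show (∑ l : Fin 4, ∑ m : Fin 4, (if l = m then (1 : ℝ) else 0) ^ 2) = 2 ^ 2 by
        simp; norm_num, Real.sqrt_sq zero_le_two]
    rw [e1] at h
    simpa only [ite_mul, one_mul, zero_mul, sum_ite_eq, mem_univ, if_true] using h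
  have key : Y * (N - 4 * Q + s ^ 2) = 4 * (∑ k, ∑ i, ∑ j, (∑ l, R l k i j * X l) ^ 2)
      - 8 * (∑ l, ∑ m, X l * X m * ∑ k, ∑ j, R l k m j * rc k j)
      - 8 * (∑ l, ∑ m, X l * X m * ∑ k, rc l k * rc m k)
      + 4 * s * ∑ l, ∑ m, X l * X m * rc l m := by
    rw [← e0, ← eA]
    simp only [mul_sum (s := univ) (a := (4 : ℝ)), mul_sum (s := univ) (a := (8 : ℝ)),
      mul_sum (s := univ) (a := 4 * s), ← sum_add_distrib, ← sum_sub_distrib]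
    refine sum_congr rfl fun l _ => sum_congr rfl fun m _ => ?_
    rw [← L l m]; ring
  have f1 := (abs_le.1 eB).1
  have f2 : s * ∑ l, ∑ m, X l * X m * rc l m ≤ 2 * √Q * (Y * √Q) :=
    (le_abs_self _).trans (by
      rw [abs_mul]; exact mul_le_mul es eF (abs_nonneg _) (by positivity))
  have g1 := Real.sq_sqrt hQ0
  have g2 := Real.sq_sqrt hN0
  have f3 : 8 * (√N * √Q) ≤ N / 2 + 32 * Q := by nlinarith [sq_nonneg (√N - 8 * √Q)]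
  have f4 := mul_le_mul_of_nonneg_right f3 hY0
  have f5 : 2 * √Q * (Y * √Q) = 2 * (Q * Y) := by linear_combination 2 * Y * g1
  nlinarith [mul_nonneg hY0 (sq_nonneg s)]

lemma sub_sw_le (D : Fin n → Fin n → Fin n → ℝ) :
    ∑ k, ∑ i, ∑ j, (D i j k - D j i k) ^ 2 ≤ 4 * ∑ a, ∑ b, ∑ c, D a b c ^ 2 := by
  have e1 : ∑ k, ∑ i, ∑ j, D i j k ^ 2 = ∑ a, ∑ b, ∑ c, D a b c ^ 2 :=
    (Gb.s3_rot fun a b c => D a b c ^ 2).symm
  have e2 : ∑ k, ∑ i, ∑ j, D j i k ^ 2 = ∑ a, ∑ b, ∑ c, D a b c ^ 2 := by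
    rw [← e1]; exact sum_congr rfl fun _ _ => sum_comm
  calc _ ≤ ∑ k, ∑ i, ∑ j, (2 * D i j k ^ 2 + 2 * D j i k ^ 2) :=
        sum_le_sum fun k _ => sum_le_sum fun i _ => sum_le_sum fun j _ => by
          nlinarith [sq_nonneg (D i j k + D j i k)]
    _ = _ := by simp only [sum_add_distrib, ← mul_sum, e1, e2]; ring

end Crest.Agent.N207.Hs
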