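import Crest.Agent.N207.V.Hs1

/-!
# Row 207 (helper97): Hessian estimates over a differential ring
-/

set_option autoImplicit false
set_option linter.unusedSectionVars false

namespace Crest.Agent.N207.A

open Finset Hs

variable {n p : ℕ} {S : Type*} [CommRing S] [Algebra ℝ S]

/-- `Hess f - c g` -/
noncomputable def Co.hsC (C : Co n S) (f : S) (c : ℝ) : Ten n S 2 :=
  C.hessT f - algebraMap ℝ S c • matT C.g

lemma hs_cd (C : Co n S) (f : S) (c : ℝ) {δ : Derivation ℝ S S} {ω : Matrix (Fin n) (Fin n) S}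
    (h : cd δ ω (matT C.g) = 0) : cd δ ω (C.hsC f c) = cd δ ω (C.hessT f) := by
  rw [Co.hsC, cd_sub, cd_smul, h, Derivation.map_algebraMap, zero_smul, smul_zero, add_zero,
    sub_zero]

lemma Co.hs_cov (C : Co n S) (f : S) (c : ℝ) : C.cov (C.hsC f c) = C.cov (C.hessT f) :=
  ten_ext fun k y => by rw [Co.cov_cons, Co.cov_cons, hs_cd C f c (C.cd_g k)]

lemma Rf.hs_Dt (F : Rf n S) (f : S) (c : ℝ) : F.DtT (F.hsC f c) = F.DtT (F.hessT f) :=
  hs_cd F.toCo f c F.Dt_g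

lemma Rf.hs_box (F : Rf n S) {f : S} (hf : F.dt f = F.lap0 f) (c : ℝ) :
    F.boxT (F.hsC f c) = -((2 : S) • bet F.gi F.rmT (F.hessT f)) := by
  have h1 : F.boxT (F.hsC f c) = F.boxT (F.hessT f) := by
    rw [Rf.boxT, Rf.boxT, F.hs_Dt, Co.lapT, Co.lapT, Co.hs_cov]
  have h2 : F.dT (0 : S) = 0 := ext1 fun k => by rw [Co.dT_v1, map_zero]; rfl
  rw [h1, Co.hessT, F.box_cov, F.box_dT, hf, sub_self, h2, Co.cov_zero, zero_sub]

section Ev

variable (C : Co n S) (ev : S →+* ℝ) (h : ∀ a b, ev (C.gi a b) = if a = b then 1 else 0)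
include h

lemma hs_ev_g (a b : Fin n) : ev (C.g a b) = if a = b then 1 else 0 := by
  have h1 := congrArg ev (C.sum_gi_g a b)
  simp only [map_sum, map_mul, h, ite_mul, one_mul, zero_mul, sum_ite_eq, mem_univ, if_true] at h1
  rw [h1]; split_ifs <;> simp

lemma hs_ev_ip1 (A B : Ten n S 1) : ev (ip C.gi A B) = ∑ a, ev (A (v1 a)) * ev (B (v1 a)) := by
  simp only [ip_v1, gv_ev2 ev h, map_mul]

lemma hs_ev_ip3 (A B : Ten n S 3) : ev (ip C.gi A B)
    = ∑ a, ∑ b, ∑ c, ev (A (v3 a b c)) * ev (B (v3 a b c)) := by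
  simp only [ip_cons C.gi (p := 2), gv_ev2 ev h, gv_ev_ip2 ev h, sl_apply]

lemma hs_ev_raise (M : Ten n S 2) (k m : Fin n) : ev ((mat M * C.gi) k m) = ev (M (v2 k m)) := by
  simp only [Matrix.mul_apply, map_sum, map_mul, h, mul_ite, mul_one, mul_zero,
    sum_ite_eq', mem_univ, if_true, mat]

lemma hs_ev_hess (f : S) (c : ℝ) (hc : ev (algebraMap ℝ S c) = c) (a b : Fin n) :
    ev (C.hessT f (v2 a b)) = ev (C.hsC f c (v2 a b)) + if a = b then c else 0 := by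
  simp only [Co.hsC, Pi.sub_apply, Pi.smul_apply, smul_eq_mul, map_sub, map_mul, hc, matT_v2,
    hs_ev_g C ev h, mul_ite, mul_one, mul_zero, sub_add_cancel]

lemma hs_ev_bet (B : Ten n S 2) (j k : Fin n) : ev (bet C.gi C.rmT B (v2 j k))
    = ∑ b, ∑ e, ev (B (v2 b e)) * ev (C.rl b j k e) := by
  simp only [C.bet_two, Co.up_apply, map_sum, map_mul, h, ite_mul, one_mul, zero_mul, mul_ite,
    mul_one, mul_zero, sum_ite_eq, sum_ite_eq', mem_univ, if_true, Co.rmT_v4]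

lemma hs_ev_ric (k j : Fin n) : ev (C.ricc k j) = ∑ a, ev (C.rl a k a j) := by
  rw [C.ricc_eq, gv_ev2 ev h]

end Ev

/-- the heat inequality for `|Hess f - c g|²` -/
theorem Rf.hs_heat (F : Rf n S) (ev : S →+* ℝ)
    (h : ∀ a b, ev (F.gi a b) = if a = b then 1 else 0) {f : S} (hf : F.dt f = F.lap0 f) {c : ℝ}
    (hc : ev (algebraMap ℝ S c) = c) :
    ev (F.dt (F.nsq (F.hsC f c))) - ev (F.lap0 (F.nsq (F.hsC f c)))
      ≤ -2 * ev (F.nsq (F.cov (F.hessT f))) + 4 * (√(ev (F.nsq F.rmT)) * ev (F.nsq (F.hsC f c))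
        + |c| * √(ev (F.nsq F.ricT)) * √(ev (F.nsq (F.hsC f c)))) := by
  rw [← map_sub, F.box_nsq, F.hs_box hf, Co.hs_cov, gv_ip_negL, ip_smulL]
  have h1 := rm_TT (fun a b c d => ev (F.rl a b c d)) fun a b => ev (F.hsC f c (v2 a b))
  have h2 := cs2 (fun a b => ev (F.ricc a b)) fun a b => ev (F.hsC f c (v2 a b))
  have e : ∀ j k, ev (bet F.gi F.rmT (F.hessT f) (v2 j k))
      = ∑ b, ∑ e, ev (F.hsC f c (v2 b e)) * ev (F.rl b j k e) - c * ev (F.ricc j k) := by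
    intro j k
    rw [hs_ev_bet F.toCo ev h, hs_ev_ric F.toCo ev h]
    simp only [hs_ev_hess F.toCo ev h f c hc, add_mul, sum_add_distrib, ite_mul, zero_mul,
      sum_ite_eq, mem_univ, if_true, mul_sum, sub_eq_add_neg, ← sum_neg_distrib]
    congr 1
    exact sum_congr rfl fun b _ => by rw [F.rl_anti34 b j k b, map_neg]; ring
  have e2 : ev (ip F.gi (bet F.gi F.rmT (F.hessT f)) (F.hsC f c))
      = ∑ j, ∑ k, (∑ b, ∑ e, ev (F.hsC f c (v2 b e)) * ev (F.rl b j k e)) * ev (F.hsC f c (v2 j k))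
        - c * ∑ j, ∑ k, ev (F.ricc j k) * ev (F.hsC f c (v2 j k)) := by
    simp only [gv_ev_ip2 ev h, e, sub_mul, sum_sub_distrib, mul_sum, mul_assoc]
  simp only [map_sub, map_mul, map_neg, map_ofNat, e2, Co.nsq, gv_ev_ip2 ev h, gv_ev_ip4 ev h,
    Co.rmT_v4, Co.ricT_v2, ← sq]
  have h3 := (le_abs_self _).trans ((abs_mul c _).le.trans
    (mul_le_mul_of_nonneg_left h2 (abs_nonneg c)))
  have h4 := (abs_le.1 h1).1
  linarith

/-- the time derivative of `|Hess f - c g|²` for a static function -/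
theorem Rf.hs_stat (F : Rf n S) (ev : S →+* ℝ)
    (h : ∀ a b, ev (F.gi a b) = if a = b then 1 else 0) {f : S} (hf : F.dt f = 0) {c : ℝ}
    (hc : ev (algebraMap ℝ S c) = c) :
    |ev (F.dt (F.nsq (F.hsC f c)))| ≤ 6 * √(ev (F.nsq (F.hsC f c))) *
      (√(ev (F.nsq (F.cov F.ricT))) * √(ev (F.gam f f))
        + √(ev (F.nsq F.ricT)) * (√(ev (F.nsq (F.hsC f c))) + |c|)) := by
  set T : Fin n → Fin n → ℝ := fun a b => ev (F.hsC f c (v2 a b)) with hT
  set D : Fin n → Fin n → Fin n → ℝ := fun a b c => ev (F.cov F.ricT (v3 a b c)) with hD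
  set X : Fin n → ℝ := fun a => ev (F.d a f) with hX
  set r : Fin n → Fin n → ℝ := fun a b => ev (F.ricc a b) with hr
  have h0 : F.hessT (0 : S) = 0 := by
    have h2 : F.dT (0 : S) = 0 := ext1 fun k => by rw [Co.dT_v1, map_zero]; rfl
    rw [Co.hessT, h2, Co.cov_zero]
  have e : ∀ k l, ev (F.DtT (F.hessT f) (v2 k l)) = ∑ m, D k l m * X m + ∑ m, D l m k * X m
      - ∑ m, D m l k * X m + (∑ m, T k m * r l m + c * r l k)
      + (∑ m, r k m * T m l + c * r k l) := by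
    intro k l
    rw [F.Dt_hess, hf, h0]
    simp only [Pi.zero_apply, zero_add, map_add, map_sum, map_mul, hs_ev_raise F.toCo ev h,
      sl_apply, Co.Om_eq, map_sub, hs_ev_hess F.toCo ev h f c hc, Co.ricT_v2, mul_add, mul_ite,
      mul_zero, sum_add_distrib, sum_ite_eq, sum_ite_eq', mem_univ, if_true, add_mul, sub_mul,
      sum_sub_distrib, hT, hD, hX, hr, mul_comm c, mul_comm (ev (F.hsC f c (v2 k _)))]
    ring
  have e2 : ev (F.dt (F.nsq (F.hsC f c))) = 2 * (∑ k, ∑ l, (∑ m, D k l m * X m) * T k l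
      + ∑ k, ∑ l, (∑ m, D l m k * X m) * T k l - ∑ k, ∑ l, (∑ m, D m l k * X m) * T k l
      + (∑ k, ∑ l, (∑ m, T k m * r l m) * T k l + c * ∑ k, ∑ l, r l k * T k l)
      + (∑ k, ∑ l, (∑ m, r k m * T m l) * T k l + c * ∑ k, ∑ l, r k l * T k l)) := by
    rw [Co.nsq, F.dt_ip, ip_comm (F.hsC f c) _ F.gi_symm, F.hs_Dt, ← two_mul, map_mul, map_ofNat,
      gv_ev_ip2 ev h]
    simp only [e, add_mul, sub_mul, sum_add_distrib, sum_sub_distrib, mul_sum, mul_assoc, hT]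
  have eP : ev (F.nsq (F.hsC f c)) = ∑ a, ∑ b, T a b ^ 2 := by
    simp only [Co.nsq, gv_ev_ip2 ev h, sq, hT]
  have eD : ev (F.nsq (F.cov F.ricT)) = ∑ a, ∑ b, ∑ c, D a b c ^ 2 := by
    simp only [Co.nsq, hs_ev_ip3 F.toCo ev h, sq, hD]
  have eX : ev (F.gam f f) = ∑ a, X a ^ 2 := by
    simp only [Co.gam, hs_ev_ip1 F.toCo ev h, sq, hX, Co.dT_v1]
  have er : ev (F.nsq F.ricT) = ∑ a, ∑ b, r a b ^ 2 := by
    simp only [Co.nsq, gv_ev_ip2 ev h, sq, hr, Co.ricT_v2]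
  have a1 := d3_T D X T
  have a2 := d3_T (fun k l m => D l m k) X T
  have a3 := d3_T (fun k l m => D m l k) X T
  have a4 := mm_T T r T
  have a5 := mm_T r (fun l m => T m l) T
  have a6 := cs2 (fun k l => r l k) T
  have a7 := cs2 r T
  rw [← Gb.s3_rot fun a b c => D a b c ^ 2] at a2
  rw [show ∑ a, ∑ b, ∑ c, D c b a ^ 2 = ∑ a, ∑ b, ∑ c, D a b c ^ 2 by
    rw [Gb.s3_rot fun a b c => D a b c ^ 2]; exact sum_congr rfl fun _ _ => sum_comm] at a3
  rw [← Gb.s2 fun a b => T a b ^ 2] at a5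
  rw [← Gb.s2 fun a b => r a b ^ 2] at a6
  have a8 := (abs_mul c _).le.trans (mul_le_mul_of_nonneg_left a6 (abs_nonneg c))
  have a9 := (abs_mul c _).le.trans (mul_le_mul_of_nonneg_left a7 (abs_nonneg c))
  rw [e2, eP, eD, eX, er]
  set P := √(∑ a, ∑ b, T a b ^ 2)
  set Q := √(∑ a, ∑ b, r a b ^ 2)
  have hP : 0 ≤ P := Real.sqrt_nonneg _
  have hQ : 0 ≤ Q := Real.sqrt_nonneg _
  have b1 : 0 ≤ P * Q * P := by positivity
  have b2 : 0 ≤ |c| * (Q * P) := by positivity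
  rw [abs_le] at a1 a2 a3 a4 a5 a8 a9 ⊢
  constructor <;> nlinarith

/-- in dimension four the curvature is controlled by the third derivatives of a function -/
theorem Co.hs_lanc (C : Co 4 S) (ev : S →+* ℝ)
    (h : ∀ a b, ev (C.gi a b) = if a = b then 1 else 0) (f : S) :
    ev (C.nsq C.rmT) * ev (C.gam f f) ≤
      88 * (ev (C.nsq (C.cov (C.hessT f))) + ev (C.nsq C.ricT) * ev (C.gam f f)) := by
  have key := lanczos_le (fun a b c d => ev (C.rl a b c d))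
    (fun a b c d => by rw [C.rl_anti12 b a c d, map_neg])
    (fun a b c d => by rw [C.rl_anti34 a b d c, map_neg])
    (fun a b c d => by rw [C.rl_pair c d a b])
    (fun a b c d => by rw [← map_add, ← map_add, C.rl_bianchi, map_zero])
    (fun k j => ev (C.ricc k j)) (hs_ev_ric C ev h) fun a => ev (C.d a f)
  have h1 := sub_sw_le fun a b c => ev (C.cov (C.hessT f) (v3 a b c))
  have e : ∀ k i j, (ev (C.cov (C.hessT f) (v3 i j k)) - ev (C.cov (C.hessT f) (v3 j i k))) ^ 2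
      = (∑ l, ev (C.rl l k i j) * ev (C.d l f)) ^ 2 := by
    intro k i j
    have h2 := congrArg ev (congrFun (C.ricci_id (C.dT f)) (v3 i j k))
    rw [Pi.add_apply, sw_cons, gamH_cons, act_v1, map_add, map_sum] at h2
    simp only [map_mul, hs_ev_raise C ev h, sl_apply, Co.dT_v1, Co.rmT_v4] at h2
    rw [Co.hessT, h2, add_sub_cancel_left, ← neg_sq, ← sum_neg_distrib]
    congr 1
    exact sum_congr rfl fun l _ => by
      rw [C.rl_pair i j k l, C.rl_anti12 k l i j, map_neg]; ring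
  simp only [e] at h1
  have h3 : 0 ≤ ∑ a, ∑ b, ∑ c, ev (C.cov (C.hessT f) (v3 a b c)) ^ 2 :=
    sum_nonneg fun _ _ => nn2 _
  simp only [Co.nsq, Co.gam, gv_ev_ip2 ev h, gv_ev_ip4 ev h, hs_ev_ip1 C ev h, hs_ev_ip3 C ev h,
    Co.rmT_v4, Co.ricT_v2, Co.dT_v1, ← sq]
  linarith

end Crest.Agent.N207.A
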